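import Crest.Agent.R047.Stmts

set_option autoImplicit false

namespace Crest.Agent.R047

variable {h : ℕ}

theorem pat_eq_false_iff (i j : Fin 66) : pat i j = false ↔
    ((i.val = 0 ∧ j.val = 1) ∨ (i.val = 1 ∧ j.val = 0) ∨
      (i.val = j.val ∧ 2 ≤ i.val ∧ i.val ≤ 64)) := by
  unfold pat
  rw [Bool.not_eq_false', decide_eq_true_eq]

theorem pat_eq_true_iff (i j : Fin 66) : pat i j = true ↔
    ¬ ((i.val = 0 ∧ j.val = 1) ∨ (i.val = 1 ∧ j.val = 0) ∨
      (i.val = j.val ∧ 2 ≤ i.val ∧ i.val ≤ 64)) := by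
  rw [← pat_eq_false_iff]
  cases pat i j <;> simp

theorem pat_last_row (j : Fin 66) : pat 65 j = true := by
  rw [pat_eq_true_iff]
  have : ((65 : Fin 66) : ℕ) = 65 := rfl
  omega

theorem pat_last_col (i : Fin 66) : pat i 65 = true := by
  rw [pat_eq_true_iff]
  have : ((65 : Fin 66) : ℕ) = 65 := rfl
  omega

/-- The column of the zero of row `i ≤ 64`, and vice versa. -/
def tau (i : Fin 66) : Fin 66 := if i.val = 0 then 1 else if i.val = 1 then 0 else i

theorem tau_val (i : Fin 66) :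
    (tau i).val = if i.val = 0 then 1 else if i.val = 1 then 0 else i.val := by
  unfold tau
  split_ifs <;> rfl

theorem pat_tau_self (i : Fin 66) (hi : i.val ≤ 64) : pat i (tau i) = false := by
  have ht := tau_val i
  rw [pat_eq_false_iff]
  split_ifs at ht <;> omega

theorem pat_tau_ne (i i' : Fin 66) (hi : i.val ≤ 64) (hne : i' ≠ i) : pat i' (tau i) = true := by
  have hne' : i'.val ≠ i.val := fun hh => hne (Fin.ext hh)
  have ht := tau_val i
  rw [pat_eq_true_iff]
  split_ifs at ht <;> omega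

theorem pat_self_tau (i : Fin 66) (hi : i.val ≤ 64) : pat (tau i) i = false := by
  have ht := tau_val i
  rw [pat_eq_false_iff]
  split_ifs at ht <;> omega

theorem pat_ne_tau (i i' : Fin 66) (hi : i.val ≤ 64) (hne : i' ≠ i) : pat (tau i) i' = true := by
  have hne' : i'.val ≠ i.val := fun hh => hne (Fin.ext hh)
  have ht := tau_val i
  rw [pat_eq_true_iff]
  split_ifs at ht <;> omega

theorem D_zero (x : X h) : D 0 x = x.val := by simp [D]

theorem D_succ (t : ℕ) (x : X h) : D t x = 2 * D (t + 1) x + (bit x t).toNat := by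
  unfold D bit
  rw [pow_succ, ← Nat.div_div_eq_div_mul]
  by_cases hb : x.val / 2 ^ t % 2 = 1
  · simp only [hb, decide_true, Bool.toNat_true]; omega
  · simp only [hb, decide_false, Bool.toNat_false]; omega

theorem D_mono {x y : X h} (hxy : x.val ≤ y.val) (t : ℕ) : D t x ≤ D t y :=
  Nat.div_le_div_right hxy

theorem D_top (x : X h) {t : ℕ} (ht : h ≤ t) : D t x = 0 := by
  unfold D
  apply Nat.div_eq_of_lt
  exact lt_of_lt_of_le x.isLt (Nat.pow_le_pow_right (by norm_num) ht)

theorem st_anti {u : ℕ} {x x' s : X h} (hx : x.val ≤ x'.val) (hst : st h u x' s = true) :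
    st h u x s = true := by
  unfold st at *
  split_ifs at * with hu
  · have h1 := D_mono hx (h - u)
    simp only [decide_eq_true_eq] at *
    omega
  · have h1 := D_mono hx (u - h - 1)
    simp only [decide_eq_true_eq] at *
    omega

theorem st_mono {u : ℕ} {x s s' : X h} (hs : s.val ≤ s'.val) (hst : st h u x s = true) :
    st h u x s' = true := by
  unfold st at *
  split_ifs at * with hu
  · have h1 := D_mono hs (h - u)
    simp only [decide_eq_true_eq] at *
    omega
  · have h1 := D_mono hs (u - h - 1)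
    simp only [decide_eq_true_eq] at *
    omega

/-- Rows of one special block are nested on the special columns. -/
theorem dmat_anti {k k' : ℕ} {x x' s : X h} (hx : x.val ≤ x'.val) (hst : dmat k x' k' s = true) :
    dmat k x k' s = true := by
  unfold dmat at *
  split_ifs at * with h1 h2
  · exact st_anti hx hst
  · exact st_anti hx hst

/-- Columns of one special block are nested on the special rows. -/
theorem dmat_mono {k k' : ℕ} {x s s' : X h} (hs : s.val ≤ s'.val) (hst : dmat k x k' s = true) :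
    dmat k x k' s' = true := by
  unfold dmat at *
  split_ifs at * with h1 h2
  · exact st_mono hs hst
  · exact st_mono hs hst

theorem dmat_true {k k' : ℕ} {x s : X h} (hst : dmat k x k' s = true) : k' = k ∨ k' = k + 1 := by
  unfold dmat at hst
  split_ifs at hst with h1 h2
  · exact Or.inl h1
  · exact Or.inr h2

theorem rkey_inl_lt (p : Fin (h + 2) × X h) : rkey (Sum.inl p : Line h) < (2 ^ h + 1) * (h + 3) := by
  obtain ⟨k, x⟩ := p
  have h1 := k.isLt
  have h2 : (2 ^ h - x.val) * (h + 3) ≤ 2 ^ h * (h + 3) :=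
    Nat.mul_le_mul_right _ (Nat.sub_le _ _)
  simp only [rkey]
  have h3 : (2 ^ h + 1) * (h + 3) = 2 ^ h * (h + 3) + (h + 3) := by ring
  omega

theorem ckey_inl_lt (p : Fin (h + 2) × X h) : ckey (Sum.inl p : Line h) < (2 ^ h + 1) * (h + 3) := by
  obtain ⟨k, x⟩ := p
  have h1 := k.isLt
  have h0 : posC h k.val x ≤ 2 ^ h := by
    unfold posC
    split_ifs
    · exact Nat.zero_le _
    · exact x.isLt.le
    · exact le_rfl
  have h2 : posC h k.val x * (h + 3) ≤ 2 ^ h * (h + 3) := Nat.mul_le_mul_right _ h0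
  simp only [ckey]
  have h3 : (2 ^ h + 1) * (h + 3) = 2 ^ h * (h + 3) + (h + 3) := by ring
  omega

theorem rkey_inr (q : Gad h × Fin 65 × X h) :
    rkey (Sum.inr q : Line h) = (2 ^ h + 1) * (h + 3) + q.2.1.val := rfl

theorem ckey_inr (q : Gad h × Fin 65 × X h) :
    ckey (Sum.inr q : Line h) = (2 ^ h + 1) * (h + 3) + q.2.1.val := rfl

/-- Lines before a special row are special. -/
theorem rkey_le_inl {r : Line h} {p : Fin (h + 2) × X h} (hle : rkey r ≤ rkey (Sum.inl p : Line h)) :
    ∃ p', r = .inl p' := by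
  rcases r with p' | q
  · exact ⟨p', rfl⟩
  · have h1 := rkey_inl_lt p
    rw [rkey_inr] at hle
    omega

theorem ckey_le_inl {r : Line h} {p : Fin (h + 2) × X h} (hle : ckey r ≤ ckey (Sum.inl p : Line h)) :
    ∃ p', r = .inl p' := by
  rcases r with p' | q
  · exact ⟨p', rfl⟩
  · have h1 := ckey_inl_lt p
    rw [ckey_inr] at hle
    omega

/-! ### Roles -/

theorem val_true {a b : Option (Fin 66)} (hv : val a b = true) :
    ∃ i j, a = some i ∧ b = some j := by
  rcases a with _ | i <;> rcases b with _ | j <;> simp_all [val]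

theorem rrole_inr {g : Gad h} {q : Gad h × Fin 65 × X h} {a : Fin 66}
    (hr : rrole g (.inr q) = some a) :
    q.1 = g ∧ a = q.2.1.succ ∧ (g.1.1.val % 2 = 1 → q.2.1.val ≠ 0) := by
  obtain ⟨g', i, x⟩ := q
  simp only [rrole] at hr
  split_ifs at hr with h1 h2
  refine ⟨h1, ?_, fun hh h0 => h2 ⟨hh, h0⟩⟩
  simpa using hr.symm

theorem crole_inr {g : Gad h} {q : Gad h × Fin 65 × X h} {a : Fin 66}
    (hr : crole g (.inr q) = some a) :
    q.1 = g ∧ a = q.2.1.succ ∧ (g.1.1.val % 2 = 0 → q.2.1.val ≠ 0) := by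
  obtain ⟨g', i, x⟩ := q
  simp only [crole] at hr
  split_ifs at hr with h1 h2
  refine ⟨h1, ?_, fun hh h0 => h2 ⟨hh, h0⟩⟩
  simpa using hr.symm

theorem rrole_inl {g : Gad h} {k : Fin (h + 2)} {x : X h} {a : Fin 66}
    (hr : rrole g (.inl (k, x)) = some a) :
    rowOK h g.1.1 g.1.2 k x ∧ ((a = 0 ∧ k.val = g.1.1.val / 2) ∨
      (a = 1 ∧ k.val = (g.1.1.val + 1) / 2 ∧ g.1.1.val % 2 = 1)) := by
  simp only [rrole] at hr
  split_ifs at hr with h1 h2 h3
  · simp only [Option.some.injEq] at hr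
    exact ⟨h1, Or.inl ⟨hr.symm, h2⟩⟩
  · simp only [Option.some.injEq] at hr
    exact ⟨h1, Or.inr ⟨hr.symm, h3, by omega⟩⟩

theorem crole_inl {g : Gad h} {k : Fin (h + 2)} {x : X h} {a : Fin 66}
    (hr : crole g (.inl (k, x)) = some a) :
    colOK h g.1.1 g.1.2 k x ∧ ((a = 0 ∧ k.val = (g.1.1.val + 1) / 2) ∨
      (a = 1 ∧ k.val = (g.1.1.val + 2) / 2 ∧ g.1.1.val % 2 = 0)) := by
  simp only [crole] at hr
  split_ifs at hr with h1 h2 h3
  · simp only [Option.some.injEq] at hr
    exact ⟨h1, Or.inl ⟨hr.symm, h2⟩⟩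
  · simp only [Option.some.injEq] at hr
    exact ⟨h1, Or.inr ⟨hr.symm, h3, by omega⟩⟩

/-- If both roles in `g` are defined and not both lines are special, the entry is that of the
pattern. -/
theorem M_eq_pat {g : Gad h} {r c : Line h} {i j : Fin 66} (hr : rrole g r = some i)
    (hc : crole g c = some j) (hns : (∃ q, r = .inr q) ∨ (∃ q, c = .inr q)) :
    M r c = pat i j := by
  rcases r with p | q <;> rcases c with p' | q'
  · rcases hns with ⟨q, hq⟩ | ⟨q, hq⟩ <;> cases hq
  · have h1 := (crole_inr hc).1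
    simp only [M, h1, hr, hc, val]
  · have h1 := (rrole_inr hr).1
    simp only [M, h1, hr, hc, val]
  · have h1 := (crole_inr hc).1
    have h2 := (rrole_inr hr).1
    simp only [M, h1, h2, hr, hc, val, if_true]

theorem roles_of_row {q : Gad h × Fin 65 × X h} {c : Line h} (hM : M (.inr q) c = true) :
    (∃ i, rrole q.1 (.inr q) = some i) ∧ ∃ j, crole q.1 c = some j := by
  rcases c with p | q'
  · obtain ⟨i, j, h1, h2⟩ := val_true hM
    exact ⟨⟨i, h1⟩, ⟨j, h2⟩⟩
  · simp only [M] at hM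
    split_ifs at hM with h1
    obtain ⟨i, j, h1, h2⟩ := val_true hM
    exact ⟨⟨i, h1⟩, ⟨j, h2⟩⟩

theorem roles_of_col {q : Gad h × Fin 65 × X h} {r : Line h} (hM : M r (.inr q) = true) :
    (∃ i, rrole q.1 r = some i) ∧ ∃ j, crole q.1 (.inr q) = some j := by
  rcases r with p | q'
  · obtain ⟨i, j, h1, h2⟩ := val_true hM
    exact ⟨⟨i, h1⟩, ⟨j, h2⟩⟩
  · simp only [M] at hM
    split_ifs at hM with h1
    obtain ⟨i, j, h2, h3⟩ := val_true hM
    rw [h1] at h2 h3
    exact ⟨⟨i, h2⟩, ⟨j, h3⟩⟩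

end Crest.Agent.R047
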