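import Mathlib

/-!
R047 (S0066): definitions of the pattern and of the host matrix.
See the blueprint notes (helper397, with the simplification of helper287) in the team database.
-/

set_option autoImplicit false

namespace Crest.Agent.R047

/-- The fixed `66 × 66` pattern (0-indexed): zeros at `(0,1)`, `(1,0)` and `(i,i)`, `2 ≤ i ≤ 64`. -/
def pat (i j : Fin 66) : Bool :=
  !(decide ((i.val = 0 ∧ j.val = 1) ∨ (i.val = 1 ∧ j.val = 0) ∨
      (i.val = j.val ∧ 2 ≤ i.val ∧ i.val ≤ 64)))

/-- Positions inside a block. -/
abbrev X (h : ℕ) := Fin (2 ^ h)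

/-- The bits `≥ t` of `x`, as a number. -/
def D {h : ℕ} (t : ℕ) (x : X h) : ℕ := x.val / 2 ^ t

/-- Bit `b` of `x`. -/
def bit {h : ℕ} (x : X h) (b : ℕ) : Bool := decide (x.val / 2 ^ b % 2 = 1)

/-- State matrix of stage `u ∈ [0, 2h+1]`. -/
def st (h u : ℕ) (x s : X h) : Bool :=
  if u ≤ h then decide (D (h - u) x ≤ D (h - u) s)
  else decide (D (u - h - 1) x < D (u - h - 1) s)

/-- Gadgets: a step `u ∈ [0, 2h]` and a bit, which must be `false` for the central step `u = h`. -/
abbrev Gad (h : ℕ) := {p : Fin (2 * h + 1) × Bool // p.1.val = h → p.2 = false}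

/-- Lines (rows and columns alike): special lines `(k, x)`, gadget lines `(g, i, x)`, where the
gadget line index `i : Fin 65` stands for line `i + 1` of the pattern. -/
abbrev Line (h : ℕ) := (Fin (h + 2) × X h) ⊕ (Gad h × Fin 65 × X h)

/-- The test on special rows in gadget `(u, α)`. -/
def rowOK (h u : ℕ) (α : Bool) (k : ℕ) (x : X h) : Prop :=
  (u < h → α = false → k = (u + 1) / 2 → bit x (h - u - 1) = false) ∧
  (h < u → α = true → k = u / 2 → bit x (u - h - 1) = true)

instance (h u : ℕ) (α : Bool) (k : ℕ) (x : X h) : Decidable (rowOK h u α k x) := by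
  unfold rowOK; infer_instance

/-- The test on special columns in gadget `(u, α)`. -/
def colOK (h u : ℕ) (α : Bool) (k : ℕ) (s : X h) : Prop :=
  (u < h → α = true → k = (u + 2) / 2 → bit s (h - u - 1) = true) ∧
  (h < u → α = false → k = (u + 1) / 2 → bit s (u - h - 1) = false)

instance (h u : ℕ) (α : Bool) (k : ℕ) (x : X h) : Decidable (colOK h u α k x) := by
  unfold colOK; infer_instance

/-- Role (a line of the pattern) of a row in gadget `g`. -/
def rrole {h : ℕ} (g : Gad h) : Line h → Option (Fin 66)
  | .inl (k, x) =>
      if rowOK h g.1.1 g.1.2 k x then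
        (if k.val = g.1.1.val / 2 then some 0
         else if k.val = (g.1.1.val + 1) / 2 then some 1 else none)
      else none
  | .inr (g', i, _) =>
      if g' = g then (if g.1.1.val % 2 = 1 ∧ i.val = 0 then none else some i.succ) else none

/-- Role (a line of the pattern) of a column in gadget `g`. -/
def crole {h : ℕ} (g : Gad h) : Line h → Option (Fin 66)
  | .inl (k, s) =>
      if colOK h g.1.1 g.1.2 k s then
        (if k.val = (g.1.1.val + 1) / 2 then some 0
         else if k.val = (g.1.1.val + 2) / 2 then some 1 else none)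
      else none
  | .inr (g', j, _) =>
      if g' = g then (if g.1.1.val % 2 = 0 ∧ j.val = 0 then none else some j.succ) else none

/-- Value of the pattern at a pair of roles. -/
def val : Option (Fin 66) → Option (Fin 66) → Bool
  | some i, some j => pat i j
  | _, _ => false

/-- Special × special part: `(row block k, x)` against `(column block k', s)`. Stage `u` lives in
row block `u / 2` and column block `(u + 1) / 2`. -/
def dmat {h : ℕ} (k : ℕ) (x : X h) (k' : ℕ) (s : X h) : Bool :=
  if k' = k then st h (2 * k) x s
  else if k' = k + 1 then st h (2 * k + 1) x s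
  else false

/-- The host matrix on lines. -/
def M {h : ℕ} : Line h → Line h → Bool
  | .inl (k, x), .inl (k', s) => dmat k.val x k'.val s
  | .inl p, .inr q => val (rrole q.1 (.inl p)) (crole q.1 (.inr q))
  | .inr q, .inl p => val (rrole q.1 (.inr q)) (crole q.1 (.inl p))
  | .inr q, .inr q' => if q.1 = q'.1 then val (rrole q.1 (.inr q)) (crole q.1 (.inr q')) else false

/-- Position of a special column: natural, except that block `0` comes first and block `h+1`
comes last. -/
def posC (h k : ℕ) (s : X h) : ℕ :=
  if k = 0 then 0 else if k ≤ h then s.val else 2 ^ h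

/-- Sorting key of columns. -/
def ckey {h : ℕ} : Line h → ℕ
  | .inl (k, s) => posC h k.val s * (h + 3) + k.val
  | .inr (_, j, _) => (2 ^ h + 1) * (h + 3) + j.val

/-- Sorting key of rows (special rows are sorted decreasingly). -/
def rkey {h : ℕ} : Line h → ℕ
  | .inl (k, x) => (2 ^ h - x.val) * (h + 3) + k.val
  | .inr (_, i, _) => (2 ^ h + 1) * (h + 3) + i.val

end Crest.Agent.R047
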