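import Crest.Agent.R047.Basic

set_option autoImplicit false

namespace Crest.Agent.R047

variable {h : ℕ}

instance neZeroPow : NeZero (2 ^ h) := ⟨by positivity⟩

/-- Position of the special column of block `k` in the thread `(x, y)`. -/
def cpos (k : ℕ) (x y : X h) : X h := if k = 0 ∨ k = h + 1 then y else x

theorem cpos_mid {k : ℕ} (x y : X h) (h1 : 1 ≤ k) (h2 : k ≤ h) : cpos k x y = x := by
  unfold cpos; rw [if_neg (by omega)]

/-- Cells owned by the thread `(x, y)`. -/
def Own (x y : X h) : Line h → Line h → Prop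
  | .inl (_, a), .inl (_, b) => a = x ∧ b = y
  | .inl (_, a), .inr (_, _, b) => a = x ∧ b = y
  | .inr (_, _, a), .inl (k, b) => a = x + y ∧ b = cpos k.val x y
  | .inr (_, _, a), .inr (_, _, b) => a = x + y ∧ b = y

theorem own_unique {x y x' y' : X h} {r c : Line h} (h1 : Own x y r c) (h2 : Own x' y' r c) :
    x = x' ∧ y = y' := by
  rcases r with ⟨k, a⟩ | ⟨g, i, a⟩ <;> rcases c with ⟨k', b⟩ | ⟨g', j, b⟩ <;>
    simp only [Own] at h1 h2
  · exact ⟨h1.1.symm.trans h2.1, h1.2.symm.trans h2.2⟩
  · exact ⟨h1.1.symm.trans h2.1, h1.2.symm.trans h2.2⟩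
  · have e1 : x + y = x' + y' := h1.1.symm.trans h2.1
    have e2 : cpos k'.val x y = cpos k'.val x' y' := h1.2.symm.trans h2.2
    unfold cpos at e2
    split_ifs at e2 with hk
    · subst e2
      exact ⟨add_right_cancel e1, rfl⟩
    · subst e2
      exact ⟨rfl, add_left_cancel e1⟩
  · have e1 : x + y = x' + y' := h1.1.symm.trans h2.1
    have e2 : y = y' := h1.2.symm.trans h2.2
    subst e2
    exact ⟨add_right_cancel e1, rfl⟩

/-- Block index. -/
def blk (k : ℕ) : Fin (h + 2) := ⟨min k (h + 1), by omega⟩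

theorem blk_val {k : ℕ} (hk : k ≤ h + 1) : (blk k : Fin (h + 2)).val = k := by
  simp [blk, hk]

/-- The bit used at step `u`. -/
def alp (u : ℕ) (x : X h) : Bool :=
  if u < h then bit x (h - u - 1) else if h < u then bit x (u - h - 1) else false

/-- The gadget used at step `u`. -/
def gad (u : ℕ) (x : X h) : Gad h :=
  ⟨(⟨min u (2 * h), by omega⟩, alp (min u (2 * h)) x), by
    intro hu
    simp only at hu
    simp only [alp, hu, lt_irrefl, if_false]⟩

theorem gad_val {u : ℕ} (x : X h) (hu : u ≤ 2 * h) : (gad u x).1.1.val = u := by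
  simp [gad, hu]

theorem gad_alp {u : ℕ} (x : X h) (hu : u ≤ 2 * h) : (gad u x).1.2 = alp u x := by
  simp [gad, hu]

/-- Rows of the copy at step `u`. -/
def Rw (u : ℕ) (x y : X h) (i : Fin 66) : Line h :=
  if i.val = 0 then .inl (blk (u / 2), x)
  else if u % 2 = 1 ∧ i.val = 1 then .inl (blk ((u + 1) / 2), x)
  else .inr (gad u x, ⟨i.val - 1, by omega⟩, x + y)

/-- Columns of the copy at step `u`. -/
def Cl (u : ℕ) (x y : X h) (j : Fin 66) : Line h :=
  if j.val = 0 then .inl (blk ((u + 1) / 2), cpos ((u + 1) / 2) x y)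
  else if u % 2 = 0 ∧ j.val = 1 then .inl (blk ((u + 2) / 2), cpos ((u + 2) / 2) x y)
  else .inr (gad u x, ⟨j.val - 1, by omega⟩, y)

theorem rrole_Rw {u : ℕ} (x y : X h) (hu : u ≤ 2 * h) (i : Fin 66) :
    rrole (gad u x) (Rw u x y i) = some i := by
  have hg := gad_val x hu
  have ha := gad_alp x hu
  unfold Rw
  split_ifs with h1 h2
  · have hok : rowOK h (gad u x).1.1 (gad u x).1.2 (blk (u / 2) : Fin (h + 2)).val x := by
      rw [hg, ha, blk_val (by omega)]
      unfold rowOK alp
      refine ⟨fun a b c => ?_, fun a b c => ?_⟩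
      · rwa [if_pos a] at b
      · rwa [if_neg (by omega), if_pos a] at b
    simp only [rrole]
    rw [if_pos hok, hg, blk_val (by omega), if_pos rfl]
    congr 1
    exact Fin.ext h1.symm
  · have hok : rowOK h (gad u x).1.1 (gad u x).1.2 (blk ((u + 1) / 2) : Fin (h + 2)).val x := by
      rw [hg, ha, blk_val (by omega)]
      unfold rowOK alp
      refine ⟨fun a b c => ?_, fun a b c => ?_⟩
      · rwa [if_pos a] at b
      · rwa [if_neg (by omega), if_pos a] at b
    simp only [rrole]
    rw [if_pos hok, hg, blk_val (by omega), if_neg (by omega), if_pos rfl]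
    congr 1
    exact Fin.ext h2.2.symm
  · simp only [rrole, if_true]
    rw [hg, if_neg (by omega)]
    congr 1
    apply Fin.ext
    simp only [Fin.val_succ]
    omega

theorem crole_Cl {u : ℕ} (x y : X h) (hh : 1 ≤ h) (hu : u ≤ 2 * h) (j : Fin 66) :
    crole (gad u x) (Cl u x y j) = some j := by
  have hg := gad_val x hu
  have ha := gad_alp x hu
  unfold Cl
  split_ifs with h1 h2
  · have hok : colOK h (gad u x).1.1 (gad u x).1.2 (blk ((u + 1) / 2) : Fin (h + 2)).val
        (cpos ((u + 1) / 2) x y) := by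
      rw [hg, ha, blk_val (by omega)]
      unfold colOK alp
      refine ⟨fun a b c => ?_, fun a b c => ?_⟩
      · rw [cpos_mid x y (by omega) (by omega)]
        rwa [if_pos a] at b
      · rw [cpos_mid x y (by omega) (by omega)]
        rwa [if_neg (by omega), if_pos a] at b
    simp only [crole]
    rw [if_pos hok, hg, blk_val (by omega), if_pos rfl]
    congr 1
    exact Fin.ext h1.symm
  · have hok : colOK h (gad u x).1.1 (gad u x).1.2 (blk ((u + 2) / 2) : Fin (h + 2)).val
        (cpos ((u + 2) / 2) x y) := by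
      rw [hg, ha, blk_val (by omega)]
      unfold colOK alp
      refine ⟨fun a b c => ?_, fun a b c => ?_⟩
      · rw [cpos_mid x y (by omega) (by omega)]
        rwa [if_pos a] at b
      · omega
    simp only [crole]
    rw [if_pos hok, hg, blk_val (by omega), if_neg (by omega), if_pos rfl]
    congr 1
    exact Fin.ext h2.2.symm
  · simp only [crole, if_true]
    rw [hg, if_neg (by omega)]
    congr 1
    apply Fin.ext
    simp only [Fin.val_succ]
    omega

theorem rkey_Rw {u : ℕ} (x y : X h) (hu : u ≤ 2 * h) {i j : Fin 66} (hij : i < j) :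
    rkey (Rw u x y i) < rkey (Rw u x y j) := by
  have hij' : i.val < j.val := hij
  unfold Rw
  rw [if_neg (by omega : ¬ j.val = 0)]
  split_ifs with h1 h2 h3 h4
  · simp only [rkey]
    rw [blk_val (by omega), blk_val (by omega)]
    omega
  · exact lt_of_lt_of_le (rkey_inl_lt _) (by rw [rkey_inr]; exact Nat.le_add_right _ _)
  · omega
  · exact lt_of_lt_of_le (rkey_inl_lt _) (by rw [rkey_inr]; exact Nat.le_add_right _ _)
  · omega
  · simp only [rkey]
    omega

theorem ckey_Cl {u : ℕ} (x y : X h) (hh : 1 ≤ h) (hu : u ≤ 2 * h) {i j : Fin 66} (hij : i < j) :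
    ckey (Cl u x y i) < ckey (Cl u x y j) := by
  have hij' : i.val < j.val := hij
  unfold Cl
  rw [if_neg (by omega : ¬ j.val = 0)]
  split_ifs with h1 h2 h3 h4
  · simp only [ckey]
    rw [blk_val (by omega), blk_val (by omega)]
    have hx := x.isLt
    have hpos : posC h ((u + 1) / 2) (cpos ((u + 1) / 2) x y) ≤
        posC h ((u + 2) / 2) (cpos ((u + 2) / 2) x y) := by
      by_cases c1 : (u + 1) / 2 = 0
      · have : posC h ((u + 1) / 2) (cpos ((u + 1) / 2) x y) = 0 := by
          unfold posC; rw [if_pos c1]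
        rw [this]; exact Nat.zero_le _
      · have e1 : posC h ((u + 1) / 2) (cpos ((u + 1) / 2) x y) = x.val := by
          rw [cpos_mid x y (by omega) (by omega)]
          unfold posC; rw [if_neg c1, if_pos (by omega)]
        rw [e1]
        by_cases c2 : (u + 2) / 2 ≤ h
        · rw [cpos_mid x y (by omega) c2]
          unfold posC; rw [if_neg (by omega), if_pos c2]
        · unfold posC; rw [if_neg (by omega), if_neg c2]
          omega
    have hmul := Nat.mul_le_mul_right (h + 3) hpos
    omega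
  · exact lt_of_lt_of_le (ckey_inl_lt _) (by rw [ckey_inr]; exact Nat.le_add_right _ _)
  · omega
  · exact lt_of_lt_of_le (ckey_inl_lt _) (by rw [ckey_inr]; exact Nat.le_add_right _ _)
  · omega
  · simp only [ckey]
    omega

/-- Every thread owns a modified cell. -/
theorem own_exists (hh : 1 ≤ h) (B : Line h → Line h → Bool)
    (hB : ¬ ∃ R C : Fin 66 → Line h,
      (∀ i j, i < j → rkey (R i) < rkey (R j)) ∧
      (∀ i j, i < j → ckey (C i) < ckey (C j)) ∧
      ∀ i j, B (R i) (C j) = pat i j) (x y : X h) :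
    ∃ r c, Own x y r c ∧ M r c ≠ B r c := by
  by_contra hcon
  push Not at hcon
  -- the chain of state cells
  obtain ⟨bv, hbv⟩ : ∃ bv : ℕ → Bool, ∀ u, bv u =
      B (.inl (blk (u / 2), x)) (.inl (blk ((u + 1) / 2), cpos ((u + 1) / 2) x y)) :=
    ⟨_, fun u => rfl⟩
  have hb0 : bv 0 = true := by
    have ho : Own x y (.inl (blk (0 / 2), x)) (.inl (blk ((0 + 1) / 2), cpos ((0 + 1) / 2) x y)) := by
      refine ⟨rfl, ?_⟩
      simp [cpos]
    rw [hbv, ← hcon _ _ ho]
    simp only [M, dmat]
    rw [blk_val (by omega)]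
    simp [st, D_top _ (le_refl h)]
  have hb1 : bv (2 * h + 1) = false := by
    have e1 : (2 * h + 1) / 2 = h := by omega
    have e2 : (2 * h + 1 + 1) / 2 = h + 1 := by omega
    have ho : Own x y (.inl (blk h, x)) (.inl (blk (h + 1), cpos (h + 1) x y)) := by
      refine ⟨rfl, ?_⟩
      simp [cpos]
    rw [hbv, e1, e2, ← hcon _ _ ho]
    simp only [M, dmat]
    rw [blk_val (by omega), blk_val (by omega), if_neg (by omega), if_pos rfl]
    unfold st
    rw [if_neg (by omega), show 2 * h + 1 - h - 1 = h by omega, D_top _ (le_refl h),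
      D_top _ (le_refl h)]
    simp
  -- a sign change
  obtain ⟨u, hu, hu1, hu2⟩ : ∃ u, u ≤ 2 * h ∧ bv u = true ∧ bv (u + 1) = false := by
    by_contra hno
    push Not at hno
    have : ∀ n, n ≤ 2 * h + 1 → bv n = true := by
      intro n
      induction n with
      | zero => intro _; exact hb0
      | succ n ih =>
        intro hn
        have h1 := ih (by omega)
        have h2 := hno n (by omega) h1
        simpa using h2
    rw [this _ le_rfl] at hb1
    exact Bool.noConfusion hb1
  apply hB
  refine ⟨Rw u x y, Cl u x y, fun i j hij => rkey_Rw x y hu hij,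
    fun i j hij => ckey_Cl x y hh hu hij, fun i j => ?_⟩
  by_cases hsp : (∃ q, Rw u x y i = .inr q) ∨ (∃ q, Cl u x y j = .inr q)
  · rw [← M_eq_pat (rrole_Rw x y hu i) (crole_Cl x y hh hu j) hsp]
    symm
    apply hcon
    -- ownership
    have hRw : (∃ k, Rw u x y i = .inl (k, x)) ∨ (∃ g a, Rw u x y i = .inr (g, a, x + y)) := by
      unfold Rw
      split_ifs
      · exact Or.inl ⟨_, rfl⟩
      · exact Or.inl ⟨_, rfl⟩
      · exact Or.inr ⟨_, _, rfl⟩
    have hCl : (∃ k : Fin (h + 2), Cl u x y j = .inl (k, cpos k.val x y)) ∨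
        (∃ g a, Cl u x y j = .inr (g, a, y)) := by
      unfold Cl
      split_ifs
      · refine Or.inl ⟨blk ((u + 1) / 2), ?_⟩
        rw [blk_val (by omega)]
      · refine Or.inl ⟨blk ((u + 2) / 2), ?_⟩
        rw [blk_val (by omega)]
      · exact Or.inr ⟨_, _, rfl⟩
    rcases hRw with ⟨k, hk⟩ | ⟨g, a, hk⟩ <;> rcases hCl with ⟨k', hk'⟩ | ⟨g', a', hk'⟩
    · rcases hsp with ⟨q, hq⟩ | ⟨q, hq⟩
      · rw [hk] at hq; cases hq
      · rw [hk'] at hq; cases hq
    · rw [hk, hk']; exact ⟨rfl, rfl⟩
    · rw [hk, hk']; exact ⟨rfl, rfl⟩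
    · rw [hk, hk']; exact ⟨rfl, rfl⟩
  · -- special × special
    push Not at hsp
    have hi : i.val = 0 ∨ (u % 2 = 1 ∧ i.val = 1) := by
      by_contra hc
      push Not at hc
      apply hsp.1 (gad u x, ⟨i.val - 1, by omega⟩, x + y)
      unfold Rw
      rw [if_neg hc.1, if_neg (by omega)]
    have hj : j.val = 0 ∨ (u % 2 = 0 ∧ j.val = 1) := by
      by_contra hc
      push Not at hc
      apply hsp.2 (gad u x, ⟨j.val - 1, by omega⟩, y)
      unfold Cl
      rw [if_neg hc.1, if_neg (by omega)]
    rcases hi with hi | ⟨hpar, hi⟩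
    · have eR : Rw u x y i = .inl (blk (u / 2), x) := by unfold Rw; rw [if_pos hi]
      rcases hj with hj | ⟨hpar', hj⟩
      · have eC : Cl u x y j = .inl (blk ((u + 1) / 2), cpos ((u + 1) / 2) x y) := by
          unfold Cl; rw [if_pos hj]
        rw [eR, eC, ← hbv, hu1]
        symm
        rw [pat_eq_true_iff]
        omega
      · have eC : Cl u x y j = .inl (blk ((u + 2) / 2), cpos ((u + 2) / 2) x y) := by
          unfold Cl; rw [if_neg (by omega), if_pos ⟨hpar', hj⟩]
        have hv := hbv (u + 1)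
        rw [show (u + 1) / 2 = u / 2 by omega, show (u + 1 + 1) / 2 = (u + 2) / 2 by omega] at hv
        rw [eR, eC, ← hv, hu2]
        symm
        rw [pat_eq_false_iff]
        omega
    · have hj' : j.val = 0 := by omega
      have eR : Rw u x y i = .inl (blk ((u + 1) / 2), x) := by
        unfold Rw; rw [if_neg (by omega), if_pos ⟨hpar, hi⟩]
      have eC : Cl u x y j = .inl (blk ((u + 1) / 2), cpos ((u + 1) / 2) x y) := by
        unfold Cl; rw [if_pos hj']
      have hv := hbv (u + 1)
      rw [show (u + 1 + 1) / 2 = (u + 1) / 2 by omega] at hv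
      rw [eR, eC, ← hv, hu2]
      symm
      rw [pat_eq_false_iff]
      omega

theorem t2 : Stmts.T2 := by
  intro h hh B hB
  have hex : ∀ l : X h × X h, ∃ p : Line h × Line h, Own l.1 l.2 p.1 p.2 ∧ M p.1 p.2 ≠ B p.1 p.2 := by
    intro l
    obtain ⟨r, c, h1, h2⟩ := own_exists hh B hB l.1 l.2
    exact ⟨(r, c), h1, h2⟩
  choose f hf using hex
  have hcard : (2 ^ h) ^ 2 = (Finset.univ : Finset (X h × X h)).card := by
    rw [Finset.card_univ, Fintype.card_prod, Fintype.card_fin, sq]
  rw [hcard]
  apply Finset.card_le_card_of_injOn f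
  · intro l _
    simp only [Finset.coe_filter, Finset.mem_univ, true_and, Set.mem_ofPred_eq]
    exact (hf l).2
  · intro l _ l' _ hll
    have h1 := (hf l).1
    have h2 := (hf l').1
    rw [← hll] at h2
    have := own_unique h1 h2
    exact Prod.ext this.1 this.2

end Crest.Agent.R047
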