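import Crest.Agent.R047.Basic
set_option autoImplicit false
namespace Crest.Agent.R047

theorem card_gad (h : ℕ) : Fintype.card (Gad h) ≤ 4 * h + 1 := by
  have h1 : Fintype.card (Gad h) < Fintype.card (Fin (2 * h + 1) × Bool) := by
    apply Fintype.card_subtype_lt (x := (⟨h, by omega⟩, true))
    simp
  rw [Fintype.card_prod, Fintype.card_fin, Fintype.card_bool] at h1
  omega

theorem t3 : Stmts.T3 := by
  intro h hh
  have h1 := card_gad h
  rw [Fintype.card_sum, Fintype.card_prod, Fintype.card_prod, Fintype.card_prod, Fintype.card_fin,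
    Fintype.card_fin, Fintype.card_fin, ← mul_assoc, ← add_mul]
  apply Nat.mul_le_mul_right
  have := Nat.mul_le_mul_right 65 h1
  omega

/-- Sorting the lines. -/
theorem exists_sorted {L : Type} [Fintype L] {n : ℕ} (hn : Fintype.card L ≤ n) (key : L → ℕ) :
    ∃ F : Fin n ≃ L ⊕ Fin (n - Fintype.card L), ∀ p q l l', p ≤ q → F p = .inl l → F q = .inl l' →
      key l ≤ key l' := by
  have hc : Fintype.card (Fin n) = Fintype.card (L ⊕ Fin (n - Fintype.card L)) := by
    rw [Fintype.card_sum, Fintype.card_fin, Fintype.card_fin]; omega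
  obtain ⟨e⟩ : Nonempty (Fin n ≃ L ⊕ Fin (n - Fintype.card L)) := ⟨Fintype.equivOfCardEq hc⟩
  let key' : L ⊕ Fin (n - Fintype.card L) → ℕ := Sum.elim key (fun _ => 0)
  refine ⟨(Tuple.sort (key' ∘ e)).trans e, ?_⟩
  intro p q l l' hpq hp hq
  have hm := Tuple.monotone_sort (key' ∘ e) hpq
  simp only [Function.comp_apply] at hm
  rw [Equiv.trans_apply] at hp hq
  rw [hp, hq] at hm
  exact hm

theorem t4 : Stmts.T4 := by
  intro T1 T2 T3
  refine ⟨pat, fun h hh => ?_⟩
  obtain ⟨n, hn⟩ : ∃ n, n = (386 * h + 2) * 2 ^ h := ⟨_, rfl⟩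
  have hcard := T3 h hh
  rw [← hn] at hcard ⊢
  obtain ⟨F, hF⟩ := exists_sorted hcard (rkey (h := h))
  obtain ⟨G, hG⟩ := exists_sorted hcard (ckey (h := h))
  let A : Fin n → Fin n → Bool := fun p q =>
    match F p, G q with
    | .inl r, .inl c => M r c
    | _, _ => false
  have hA : ∀ r c, A (F.symm (.inl r)) (G.symm (.inl c)) = M r c := by
    intro r c
    simp only [A, Equiv.apply_symm_apply]
  have hA' : ∀ p q, A p q = true → (∃ r, F p = .inl r) ∧ ∃ c, G q = .inl c := by
    intro p q hpq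
    simp only [A] at hpq
    rcases hp : F p with r | r <;> rcases hq : G q with c | c
    · exact ⟨⟨r, rfl⟩, ⟨c, rfl⟩⟩
    · rw [hp, hq] at hpq; simp at hpq
    · rw [hp, hq] at hpq; simp at hpq
    · rw [hp, hq] at hpq; simp at hpq
  have hpow : (0 : ℝ) < 2 ^ h := by positivity
  have hlin : (0 : ℝ) < 386 * (h : ℝ) + 2 := by positivity
  have hnR : (n : ℝ) = (386 * (h : ℝ) + 2) * 2 ^ h := by rw [hn]; push_cast; ring
  have hnpos : (0 : ℝ) < n := by rw [hnR]; positivity
  refine ⟨A, ?_, ?_⟩
  · intro B hB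
    rw [Fintype.card_eq_zero_iff] at hB
    have key := T2 h hh (fun r c => B (F.symm (.inl r)) (G.symm (.inl c))) (by
      rintro ⟨R, C, hR, hC, hM⟩
      refine hB.false ⟨(fun i => F.symm (.inl (R i)), fun j => G.symm (.inl (C j))), ?_, ?_, hM⟩
      · intro i j hij
        by_contra hcon
        push Not at hcon
        have := hF _ _ (R j) (R i) hcon (by simp) (by simp)
        exact absurd (hR i j hij) (by omega)
      · intro i j hij
        by_contra hcon
        push Not at hcon
        have := hG _ _ (C j) (C i) hcon (by simp) (by simp)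
        exact absurd (hC i j hij) (by omega))
    have hle : (Finset.univ.filter (fun p : Line h × Line h =>
        M p.1 p.2 ≠ B (F.symm (.inl p.1)) (G.symm (.inl p.2)))).card ≤
        (Finset.univ.filter (fun rc : Fin n × Fin n => A rc.1 rc.2 ≠ B rc.1 rc.2)).card := by
      apply Finset.card_le_card_of_injOn
        (fun p : Line h × Line h => (F.symm (.inl p.1), G.symm (.inl p.2)))
      · intro p hp
        simp only [Finset.coe_filter, Finset.mem_univ, true_and, Set.mem_ofPred_eq] at hp ⊢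
        rw [hA]
        exact hp
      · intro p _ q _ hpq
        simp only [Prod.mk.injEq, EmbeddingLike.apply_eq_iff_eq, Sum.inl.injEq] at hpq
        exact Prod.ext hpq.1 hpq.2
    have hfin := key.trans hle
    have hfinR : ((2 : ℝ) ^ h) ^ 2 ≤ ((Finset.univ.filter
        (fun rc : Fin n × Fin n => A rc.1 rc.2 ≠ B rc.1 rc.2)).card : ℝ) := by
      exact_mod_cast hfin
    have e : ((386 * (h : ℝ) + 2) ^ 2)⁻¹ * (n : ℝ) ^ 2 = ((2 : ℝ) ^ h) ^ 2 := by
      rw [hnR, mul_pow]
      field_simp
    rw [e]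
    exact hfinR
  · -- counting
    have hcopy : ∀ rc : {rc : (Fin 66 → Fin n) × (Fin 66 → Fin n) //
        StrictMono rc.1 ∧ StrictMono rc.2 ∧ ∀ i j : Fin 66, A (rc.1 i) (rc.2 j) = pat i j},
        ∃ x : X h, F (rc.1.1 0) = .inl (.inl (⟨h / 2, by omega⟩, x)) ∧
          G (rc.1.2 0) = .inl (.inl (⟨(h + 1) / 2, by omega⟩, x)) := by
      rintro ⟨⟨rows, cols⟩, hr, hc, hM⟩
      simp only at hr hc hM ⊢
      have hR : ∀ i, ∃ r, F (rows i) = .inl r := fun i =>
        (hA' _ _ (by rw [hM i 65]; exact pat_last_col i)).1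
      have hC : ∀ j, ∃ c, G (cols j) = .inl c := fun j =>
        (hA' _ _ (by rw [hM 65 j]; exact pat_last_row j)).2
      choose R hR using hR
      choose C hC using hC
      obtain ⟨x, hx1, hx2⟩ := T1 h hh R C
        (fun i j hij => hF _ _ _ _ (hr.monotone hij) (hR i) (hR j))
        (fun i j hij => hG _ _ _ _ (hc.monotone hij) (hC i) (hC j))
        (fun i j => by
          rw [← hM i j]
          simp only [A]
          rw [hR i, hC j])
      exact ⟨x, by rw [hR 0, hx1], by rw [hC 0, hx2]⟩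
    choose fx hfx using hcopy
    have hcount : Fintype.card {rc : (Fin 66 → Fin n) × (Fin 66 → Fin n) //
        StrictMono rc.1 ∧ StrictMono rc.2 ∧ ∀ i j : Fin 66, A (rc.1 i) (rc.2 j) = pat i j} ≤
        2 ^ h * n ^ 130 := by
      have hinj : Function.Injective (fun rc : {rc : (Fin 66 → Fin n) × (Fin 66 → Fin n) //
        StrictMono rc.1 ∧ StrictMono rc.2 ∧ ∀ i j : Fin 66, A (rc.1 i) (rc.2 j) = pat i j} =>
          ((fx rc, fun i : Fin 65 => rc.1.1 i.succ, fun j : Fin 65 => rc.1.2 j.succ) :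
            X h × (Fin 65 → Fin n) × (Fin 65 → Fin n))) := by
        intro rc rc' he
        simp only [Prod.mk.injEq] at he
        obtain ⟨e1, e2, e3⟩ := he
        have h1 := hfx rc
        have h2 := hfx rc'
        rw [← e1] at h2
        apply Subtype.ext
        apply Prod.ext
        · funext i
          refine Fin.cases ?_ (fun i => ?_) i
          · exact F.injective (h1.1.trans h2.1.symm)
          · exact congrFun e2 i
        · funext i
          refine Fin.cases ?_ (fun i => ?_) i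
          · exact G.injective (h1.2.trans h2.2.symm)
          · exact congrFun e3 i
      have := Fintype.card_le_of_injective _ hinj
      rw [Fintype.card_prod, Fintype.card_prod, Fintype.card_fun, Fintype.card_fin,
        Fintype.card_fin, Fintype.card_fin, ← pow_add] at this
      exact this
    have hcountR : (Fintype.card {rc : (Fin 66 → Fin n) × (Fin 66 → Fin n) //
        StrictMono rc.1 ∧ StrictMono rc.2 ∧ ∀ i j : Fin 66, A (rc.1 i) (rc.2 j) = pat i j} : ℝ) ≤
        2 ^ h * (n : ℝ) ^ 130 := by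
      exact_mod_cast hcount
    rw [div_le_iff₀ (by positivity)]
    refine hcountR.trans (le_of_eq ?_)
    have e1 : (n : ℝ) ^ 132 = (n : ℝ) ^ 130 * (n : ℝ) ^ 2 := by rw [← pow_add]
    rw [e1]
    have e2 : ((386 * (h : ℝ) + 2) ^ 2)⁻¹ * (2 : ℝ)⁻¹ ^ h * ((n : ℝ) ^ 130 * (n : ℝ) ^ 2) =
        (n : ℝ) ^ 130 * (((386 * (h : ℝ) + 2) ^ 2)⁻¹ * (2 : ℝ)⁻¹ ^ h * (n : ℝ) ^ 2) := by ring
    rw [e2, mul_comm]
    congr 1
    rw [hnR, inv_pow]
    field_simp

end Crest.Agent.R047
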