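import Crest.Agent.R047.Basic

/-! Part T1a of S0066: the last row of a copy is not special. -/

set_option autoImplicit false

namespace Crest.Agent.R047

variable {h : ℕ}

/-- Class of a column relative to the row block `k` (special columns: `0`). -/
def ccodeA (k : ℕ) : Line h → ℕ
  | .inl _ => 0
  | .inr q => 1 + 2 * (q.1.1.1.val + 1 - 2 * k) + q.1.1.2.toNat

theorem M_inl_inr_true {k : Fin (h + 2)} {x : X h} {q : Gad h × Fin 65 × X h}
    (hM : M (.inl (k, x)) (.inr q) = true) :
    (k.val = q.1.1.1.val / 2 ∨ k.val = (q.1.1.1.val + 1) / 2) ∧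
      ∃ a, rrole q.1 (.inl (k, x)) = some a ∧ (a = 0 ↔ k.val = q.1.1.1.val / 2) := by
  obtain ⟨⟨a, ha⟩, -⟩ := roles_of_col hM
  have h2 := ha
  simp only [rrole] at h2
  split_ifs at h2 with h3 h4 h5
  · simp only [Option.some.injEq] at h2
    refine ⟨Or.inl h4, a, ha, ?_⟩
    rw [← h2]
    simp [h4]
  · simp only [Option.some.injEq] at h2
    refine ⟨Or.inr h5, a, ha, ?_⟩
    rw [← h2]
    simp [h4]

theorem t1a : Stmts.T1a := by
  intro h hh R C hRk hCk hM p65 h65
  -- all rows are special
  have hR : ∀ i, ∃ p : Fin (h + 2) × X h, R i = .inl p := by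
    intro i
    have h1 : rkey (R i) ≤ rkey (R 65) := hRk i 65 (Fin.le_last i)
    rw [h65] at h1
    exact rkey_le_inl h1
  choose p hp using hR
  obtain ⟨k65, x65⟩ := p65
  -- the blocks of the rows take two consecutive values
  have hblocks : ∃ a : ℕ, ∀ i, (p i).1.val = a ∨ (p i).1.val = a + 1 := by
    rcases hC : C 65 with ⟨k', s⟩ | q
    · refine ⟨k'.val - 1, fun i => ?_⟩
      have h1 : M (R i) (C 65) = true := by rw [hM, pat_last_col]
      rw [hp i, hC] at h1
      have h2 := dmat_true (k := (p i).1.val) (k' := k'.val) (x := (p i).2) (s := s) h1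
      omega
    · refine ⟨q.1.1.1.val / 2, fun i => ?_⟩
      have h1 : M (R i) (C 65) = true := by rw [hM, pat_last_col]
      rw [hp i, hC] at h1
      have h2 := (M_inl_inr_true (k := (p i).1) (x := (p i).2) (q := q) h1).1
      omega
  obtain ⟨a, ha⟩ := hblocks
  -- row 65 restricts the columns
  have hrow : ∀ j, M (.inl (k65, x65)) (C j) = true := by
    intro j
    rw [← h65, hM, pat_last_row]
  have hcode : ∀ j, ccodeA k65.val (C j) < 7 := by
    intro j
    have h1 := hrow j
    rcases hC : C j with p' | q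
    · simp [ccodeA]
    · rw [hC] at h1
      have h2 := (M_inl_inr_true h1).1
      have h3 := Bool.toNat_le q.1.1.2
      simp only [ccodeA]
      omega
  have hcodeinj : ∀ j j' (q q' : Gad h × Fin 65 × X h), C j = .inr q → C j' = .inr q' →
      ccodeA k65.val (C j) = ccodeA k65.val (C j') → q.1 = q'.1 := by
    intro j j' q q' hq hq' hcc
    have h1 := hrow j
    have h1' := hrow j'
    rw [hq] at h1 hcc
    rw [hq'] at h1' hcc
    have h2 := (M_inl_inr_true h1).1
    have h2' := (M_inl_inr_true h1').1
    have h3 := Bool.toNat_le q.1.1.2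
    have h3' := Bool.toNat_le q'.1.1.2
    simp only [ccodeA] at hcc
    have hu : q.1.1.1.val = q'.1.1.1.val := by omega
    have hb : q.1.1.2.toNat = q'.1.1.2.toNat := by omega
    apply Subtype.ext
    apply Prod.ext
    · exact Fin.ext hu
    · revert hb
      cases q.1.1.2 <;> cases q'.1.1.2 <;> simp
  -- pigeonhole
  let f : Fin 65 → Fin 14 := fun i =>
    ⟨((p i.castSucc).1.val - a) * 7 + ccodeA k65.val (C (tau i.castSucc)), by
      have h1 := hcode (tau i.castSucc)
      have h2 := ha i.castSucc
      omega⟩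
  obtain ⟨i, i', hne, hf⟩ := Fintype.exists_ne_map_eq_of_card_lt f (by simp)
  have hf' := congrArg Fin.val hf
  simp only [f] at hf'
  have hc1 := hcode (tau i.castSucc)
  have hc2 := hcode (tau i'.castSucc)
  have ha1 := ha i.castSucc
  have ha2 := ha i'.castSucc
  have hk : (p i.castSucc).1.val = (p i'.castSucc).1.val := by omega
  have hcc : ccodeA k65.val (C (tau i.castSucc)) = ccodeA k65.val (C (tau i'.castSucc)) := by omega
  have hi : (i.castSucc : Fin 66).val ≤ 64 := by simp only [Fin.val_castSucc]; omega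
  have hi' : (i'.castSucc : Fin 66).val ≤ 64 := by simp only [Fin.val_castSucc]; omega
  have hne1 : (i.castSucc : Fin 66) ≠ i'.castSucc := by
    intro hh2; exact hne (Fin.castSucc_injective _ hh2)
  have m1 : M (R i.castSucc) (C (tau i.castSucc)) = false := by rw [hM, pat_tau_self _ hi]
  have m2 : M (R i'.castSucc) (C (tau i.castSucc)) = true := by
    rw [hM, pat_tau_ne _ _ hi hne1.symm]
  have m3 : M (R i'.castSucc) (C (tau i'.castSucc)) = false := by rw [hM, pat_tau_self _ hi']
  have m4 : M (R i.castSucc) (C (tau i'.castSucc)) = true := by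
    rw [hM, pat_tau_ne _ _ hi' hne1]
  have hpi := hp i.castSucc
  have hpi' := hp i'.castSucc
  generalize p i.castSucc = r at *
  generalize p i'.castSucc = r' at *
  obtain ⟨k, x⟩ := r
  obtain ⟨k', x'⟩ := r'
  simp only at hk
  have hkk : k' = k := Fin.ext hk.symm
  subst hkk
  rcases hC1 : C (tau i.castSucc) with ⟨c1, s1⟩ | q1
  · rcases hC2 : C (tau i'.castSucc) with ⟨c2, s2⟩ | q2
    · rw [hpi, hC1] at m1
      rw [hpi', hC1] at m2
      rw [hpi', hC2] at m3
      rw [hpi, hC2] at m4
      rcases le_total x.val x'.val with hle | hle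
      · have := dmat_anti (k := k'.val) (k' := c1.val) (s := s1) hle m2
        change dmat k'.val x c1.val s1 = false at m1
        rw [this] at m1
        cases m1
      · have := dmat_anti (k := k'.val) (k' := c2.val) (s := s2) hle m4
        change dmat k'.val x' c2.val s2 = false at m3
        rw [this] at m3
        cases m3
    · rw [hC1, hC2] at hcc
      simp only [ccodeA] at hcc
      omega
  · rcases hC2 : C (tau i'.castSucc) with ⟨c2, s2⟩ | q2
    · rw [hC1, hC2] at hcc
      simp only [ccodeA] at hcc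
      omega
    · have hg : q1.1 = q2.1 := hcodeinj _ _ q1 q2 hC1 hC2 hcc
      rw [hpi, hC1] at m1
      rw [hpi', hC1] at m2
      rw [hpi, hC2] at m4
      obtain ⟨-, b1, hb1, hb1'⟩ := M_inl_inr_true m2
      obtain ⟨-, b2, hb2, hb2'⟩ := M_inl_inr_true m4
      have hroles := rrole_inl hb1
      have hroles2 := rrole_inl hb2
      rw [← hg] at hb2 hb2' hroles2
      have hbb : b1 = b2 := by
        rcases hroles.2 with ⟨e1, e2⟩ | ⟨e1, e2, e3⟩ <;> rcases hroles2.2 with ⟨e4, e5⟩ | ⟨e4, e5, e6⟩
        · rw [e1, e4]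
        · exfalso; omega
        · exfalso; omega
        · rw [e1, e4]
      subst hbb
      simp only [M] at m1 m2
      rw [hb1] at m2
      rw [hb2] at m1
      rw [m2] at m1
      cases m1

end Crest.Agent.R047
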