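import Crest.Agent.R047.Basic

/-! Part T1b of S0066: the last column of a copy is not special. -/

set_option autoImplicit false

namespace Crest.Agent.R047

variable {h : ℕ}

/-- Class of a row relative to the column block `k` (special rows: `0`). -/
def ccodeB (k : ℕ) : Line h → ℕ
  | .inl _ => 0
  | .inr q => 1 + 2 * (q.1.1.1.val + 2 - 2 * k) + q.1.1.2.toNat

theorem M_inr_inl_true {k : Fin (h + 2)} {s : X h} {q : Gad h × Fin 65 × X h}
    (hM : M (.inr q) (.inl (k, s)) = true) :
    (k.val = (q.1.1.1.val + 1) / 2 ∨ k.val = (q.1.1.1.val + 2) / 2) ∧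
      ∃ a, crole q.1 (.inl (k, s)) = some a := by
  obtain ⟨-, ⟨a, ha⟩⟩ := roles_of_row hM
  have h2 := crole_inl ha
  refine ⟨?_, a, ha⟩
  rcases h2.2 with ⟨-, e⟩ | ⟨-, e, -⟩
  · exact Or.inl e
  · exact Or.inr e

theorem t1b : Stmts.T1b := by
  intro h hh R C hRk hCk hM p65 h65
  -- all columns are special
  have hC : ∀ i, ∃ p : Fin (h + 2) × X h, C i = .inl p := by
    intro i
    have h1 : ckey (C i) ≤ ckey (C 65) := hCk i 65 (Fin.le_last i)
    rw [h65] at h1
    exact ckey_le_inl h1
  choose p hp using hC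
  obtain ⟨k65, x65⟩ := p65
  -- the blocks of the columns take two consecutive values
  have hblocks : ∃ a : ℕ, ∀ i, (p i).1.val = a ∨ (p i).1.val = a + 1 := by
    rcases hR : R 65 with ⟨k', s⟩ | q
    · refine ⟨k'.val, fun i => ?_⟩
      have h1 : M (R 65) (C i) = true := by rw [hM, pat_last_row]
      rw [hp i, hR] at h1
      exact dmat_true (k := k'.val) (k' := (p i).1.val) (x := s) (s := (p i).2) h1
    · refine ⟨(q.1.1.1.val + 1) / 2, fun i => ?_⟩
      have h1 : M (R 65) (C i) = true := by rw [hM, pat_last_row]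
      rw [hp i, hR] at h1
      have h2 := (M_inr_inl_true (k := (p i).1) (s := (p i).2) (q := q) h1).1
      omega
  obtain ⟨a, ha⟩ := hblocks
  -- column 65 restricts the rows
  have hcol : ∀ j, M (R j) (.inl (k65, x65)) = true := by
    intro j
    rw [← h65, hM, pat_last_col]
  have hcode : ∀ j, ccodeB k65.val (R j) < 7 := by
    intro j
    have h1 := hcol j
    rcases hR : R j with p' | q
    · simp [ccodeB]
    · rw [hR] at h1
      have h2 := (M_inr_inl_true h1).1
      have h3 := Bool.toNat_le q.1.1.2
      simp only [ccodeB]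
      omega
  have hcodeinj : ∀ j j' (q q' : Gad h × Fin 65 × X h), R j = .inr q → R j' = .inr q' →
      ccodeB k65.val (R j) = ccodeB k65.val (R j') → q.1 = q'.1 := by
    intro j j' q q' hq hq' hcc
    have h1 := hcol j
    have h1' := hcol j'
    rw [hq] at h1 hcc
    rw [hq'] at h1' hcc
    have h2 := (M_inr_inl_true h1).1
    have h2' := (M_inr_inl_true h1').1
    have h3 := Bool.toNat_le q.1.1.2
    have h3' := Bool.toNat_le q'.1.1.2
    simp only [ccodeB] at hcc
    have hu : q.1.1.1.val = q'.1.1.1.val := by omega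
    have hb : q.1.1.2.toNat = q'.1.1.2.toNat := by omega
    apply Subtype.ext
    apply Prod.ext
    · exact Fin.ext hu
    · revert hb
      cases q.1.1.2 <;> cases q'.1.1.2 <;> simp
  -- pigeonhole
  let f : Fin 65 → Fin 14 := fun i =>
    ⟨((p i.castSucc).1.val - a) * 7 + ccodeB k65.val (R (tau i.castSucc)), by
      have h1 := hcode (tau i.castSucc)
      have h2 := ha i.castSucc
      omega⟩
  obtain ⟨i, i', hne, hf⟩ := Fintype.exists_ne_map_eq_of_card_lt f (by simp)
  have hf' := congrArg Fin.val hf
  simp only [f] at hf'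
  have hc1 := hcode (tau i.castSucc)
  have hc2 := hcode (tau i'.castSucc)
  have ha1 := ha i.castSucc
  have ha2 := ha i'.castSucc
  have hk : (p i.castSucc).1.val = (p i'.castSucc).1.val := by omega
  have hcc : ccodeB k65.val (R (tau i.castSucc)) = ccodeB k65.val (R (tau i'.castSucc)) := by omega
  have hi : (i.castSucc : Fin 66).val ≤ 64 := by simp only [Fin.val_castSucc]; omega
  have hi' : (i'.castSucc : Fin 66).val ≤ 64 := by simp only [Fin.val_castSucc]; omega
  have hne1 : (i.castSucc : Fin 66) ≠ i'.castSucc := by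
    intro hh2; exact hne (Fin.castSucc_injective _ hh2)
  have m1 : M (R (tau i.castSucc)) (C i.castSucc) = false := by rw [hM, pat_self_tau _ hi]
  have m2 : M (R (tau i.castSucc)) (C i'.castSucc) = true := by
    rw [hM, pat_ne_tau _ _ hi hne1.symm]
  have m3 : M (R (tau i'.castSucc)) (C i'.castSucc) = false := by rw [hM, pat_self_tau _ hi']
  have m4 : M (R (tau i'.castSucc)) (C i.castSucc) = true := by
    rw [hM, pat_ne_tau _ _ hi' hne1]
  have hpi := hp i.castSucc
  have hpi' := hp i'.castSucc
  generalize p i.castSucc = r at *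
  generalize p i'.castSucc = r' at *
  obtain ⟨k, x⟩ := r
  obtain ⟨k', x'⟩ := r'
  simp only at hk
  have hkk : k' = k := Fin.ext hk.symm
  subst hkk
  rcases hR1 : R (tau i.castSucc) with ⟨c1, s1⟩ | q1
  · rcases hR2 : R (tau i'.castSucc) with ⟨c2, s2⟩ | q2
    · rw [hpi, hR1] at m1
      rw [hpi', hR1] at m2
      rw [hpi', hR2] at m3
      rw [hpi, hR2] at m4
      rcases le_total x.val x'.val with hle | hle
      · have := dmat_mono (k := c2.val) (k' := k'.val) (x := s2) hle m4
        change dmat c2.val s2 k'.val x' = false at m3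
        rw [this] at m3
        cases m3
      · have := dmat_mono (k := c1.val) (k' := k'.val) (x := s1) hle m2
        change dmat c1.val s1 k'.val x = false at m1
        rw [this] at m1
        cases m1
    · rw [hR1, hR2] at hcc
      simp only [ccodeB] at hcc
      omega
  · rcases hR2 : R (tau i'.castSucc) with ⟨c2, s2⟩ | q2
    · rw [hR1, hR2] at hcc
      simp only [ccodeB] at hcc
      omega
    · have hg : q1.1 = q2.1 := hcodeinj _ _ q1 q2 hR1 hR2 hcc
      rw [hpi, hR1] at m1
      rw [hpi', hR1] at m2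
      rw [hpi, hR2] at m4
      obtain ⟨-, b1, hb1⟩ := M_inr_inl_true m2
      obtain ⟨-, b2, hb2⟩ := M_inr_inl_true m4
      have hroles := crole_inl hb1
      have hroles2 := crole_inl hb2
      rw [← hg] at hb2 hroles2
      have hbb : b1 = b2 := by
        rcases hroles.2 with ⟨e1, e2⟩ | ⟨e1, e2, e3⟩ <;> rcases hroles2.2 with ⟨e4, e5⟩ | ⟨e4, e5, e6⟩
        · rw [e1, e4]
        · exfalso; omega
        · exfalso; omega
        · rw [e1, e4]
      subst hbb
      simp only [M] at m1 m2
      rw [hb1] at m2
      rw [hb2] at m1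
      rw [m2] at m1
      cases m1

end Crest.Agent.R047
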