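import Crest.Agent.R047.Basic

set_option autoImplicit false

namespace Crest.Agent.R047

variable {h : ℕ}

/-- The stage lemma: with the order relations and the tests, a `1` followed by a `0` can only occur
at the central step. -/
theorem stage_lemma {u : ℕ} {α : Bool} {x x' s s' : X h} (hu : u ≤ 2 * h)
    (hx : x'.val ≤ x.val)
    (hs : u = 0 ∨ u = 2 * h ∨ s.val ≤ s'.val)
    (t1 : u < h → α = false → bit x' (h - u - 1) = false)
    (t2 : h < u → α = true → bit x (u - h - 1) = true)
    (t3 : u < h → α = true → bit s' (h - u - 1) = true)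
    (t4 : h < u → α = false → bit s (u - h - 1) = false)
    (h1 : st h u x s = true) (h2 : st h (u + 1) x' s' = false) : u = h := by
  by_contra hne
  rcases lt_or_gt_of_ne hne with hlt | hgt
  · -- first half
    have hc1 : D (h - u) x ≤ D (h - u) s := by
      have := h1
      unfold st at this
      rw [if_pos hlt.le, decide_eq_true_eq] at this
      exact this
    have hc2 : D (h - u) x' ≤ D (h - u) x := D_mono hx _
    have hc3 : D (h - u) s ≤ D (h - u) s' := by
      rcases hs with h0 | h0 | h0
      · rw [D_top s (by omega), D_top s' (by omega)]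
      · omega
      · exact D_mono h0 _
    have e : h - u = (h - u - 1) + 1 := by omega
    have d1 := D_succ (h - u - 1) x'
    have d2 := D_succ (h - u - 1) s'
    rw [← e] at d1 d2
    have hb : (bit x' (h - u - 1)).toNat ≤ (bit s' (h - u - 1)).toNat := by
      cases α with
      | false => rw [t1 hlt rfl]; exact Nat.zero_le _
      | true => rw [t3 hlt rfl]; exact Bool.toNat_le _
    have h3 : D (h - (u + 1)) x' ≤ D (h - (u + 1)) s' := by
      have e2 : h - (u + 1) = h - u - 1 := by omega
      rw [e2]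
      omega
    unfold st at h2
    rw [if_pos (by omega : u + 1 ≤ h), decide_eq_false_iff_not] at h2
    exact h2 h3
  · -- second half
    have hc1 : D (u - h - 1) x < D (u - h - 1) s := by
      have := h1
      unfold st at this
      rw [if_neg (by omega : ¬ u ≤ h), decide_eq_true_eq] at this
      exact this
    have e : u - h = (u - h - 1) + 1 := by omega
    have d1 := D_succ (u - h - 1) x
    have d2 := D_succ (u - h - 1) s
    rw [← e] at d1 d2
    have hb : (bit s (u - h - 1)).toNat ≤ (bit x (u - h - 1)).toNat := by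
      cases α with
      | false => rw [t4 hgt rfl]; exact Nat.zero_le _
      | true => rw [t2 hgt rfl]; exact Bool.toNat_le _
    have hc2 : D (u - h) x' ≤ D (u - h) x := D_mono hx _
    have hc3 : D (u - h) s ≤ D (u - h) s' := by
      rcases hs with h0 | h0 | h0
      · omega
      · rw [D_top s (by omega)]; exact Nat.zero_le _
      · exact D_mono h0 _
    have h3 : D (u + 1 - h - 1) x' < D (u + 1 - h - 1) s' := by
      have e2 : u + 1 - h - 1 = u - h := by omega
      rw [e2]
      omega
    unfold st at h2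
    rw [if_neg (by omega : ¬ u + 1 ≤ h), decide_eq_false_iff_not] at h2
    exact h2 h3

/-- The central step. -/
theorem central_lemma {x x' s s' : X h} (hx : x'.val ≤ x.val) (hs : s.val ≤ s'.val)
    (h1 : st h h x s = true) (h2 : st h (h + 1) x' s' = false) : x = s := by
  unfold st at h1 h2
  rw [if_pos le_rfl, decide_eq_true_eq, Nat.sub_self, D_zero, D_zero] at h1
  rw [if_neg (by omega), decide_eq_false_iff_not, show h + 1 - h - 1 = 0 by omega,
    D_zero, D_zero] at h2
  apply Fin.ext
  omega

theorem ckey_le_succ {k k' : Fin (h + 2)} {s s' : X h} (hk : k'.val = k.val + 1)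
    (hle : ckey (Sum.inl (k, s) : Line h) ≤ ckey (Sum.inl (k', s') : Line h)) :
    k.val = 0 ∨ k.val = h ∨ s.val ≤ s'.val := by
  simp only [ckey] at hle
  by_cases h0 : k.val = 0
  · exact Or.inl h0
  by_cases h1 : k.val = h
  · exact Or.inr (Or.inl h1)
  right; right
  have hk' := k'.isLt
  have e1 : posC h k.val s = s.val := by
    unfold posC; rw [if_neg h0, if_pos (by omega)]
  have e2 : posC h k'.val s' = s'.val := by
    unfold posC; rw [if_neg (by omega), if_pos (by omega)]
  rw [e1, e2] at hle
  by_contra hcon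
  push Not at hcon
  have h3 : (s'.val + 1) * (h + 3) ≤ s.val * (h + 3) := Nat.mul_le_mul_right _ hcon
  have h4 : (s'.val + 1) * (h + 3) = s'.val * (h + 3) + (h + 3) := by ring
  omega

theorem rkey_le_succ {k k' : Fin (h + 2)} {x x' : X h} (hk : k'.val = k.val + 1)
    (hle : rkey (Sum.inl (k, x) : Line h) ≤ rkey (Sum.inl (k', x') : Line h)) :
    x'.val ≤ x.val := by
  simp only [rkey] at hle
  have hk' := k'.isLt
  by_contra hcon
  push Not at hcon
  have hx := x.isLt
  have hx' := x'.isLt
  have h3 : (2 ^ h - x'.val + 1) * (h + 3) ≤ (2 ^ h - x.val) * (h + 3) :=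
    Nat.mul_le_mul_right _ (by omega)
  have h4 : (2 ^ h - x'.val + 1) * (h + 3) = (2 ^ h - x'.val) * (h + 3) + (h + 3) := by ring
  omega

/-- A map `Fin 66 → Fin 66` which is injective is surjective. -/
theorem surj_of_inj {φ : Fin 66 → Fin 66} (hφ : Function.Injective φ) :
    Function.Surjective φ := Finite.surjective_of_injective hφ

/-- Rows of the pattern are pairwise distinct. -/
theorem pat_row_ne {i i' : Fin 66} (hne : i ≠ i') (he : ∀ j, pat i j = pat i' j) : False := by
  rcases Nat.lt_or_ge i.val 65 with hi | hi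
  · have h1 := pat_tau_self i (by omega)
    have h2 := pat_tau_ne i i' (by omega) (Ne.symm hne)
    rw [he] at h1
    rw [h1] at h2
    exact Bool.noConfusion h2
  · have hi' : i'.val ≤ 64 := by
      have := i.isLt
      have := i'.isLt
      have : i.val ≠ i'.val := fun hh => hne (Fin.ext hh)
      omega
    have h1 := pat_tau_self i' hi'
    have h2 := pat_tau_ne i' i hi' hne
    rw [← he] at h1
    rw [h1] at h2
    exact Bool.noConfusion h2

/-- Columns of the pattern are pairwise distinct. -/
theorem pat_col_ne {i i' : Fin 66} (hne : i ≠ i') (he : ∀ j, pat j i = pat j i') : False := by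
  rcases Nat.lt_or_ge i.val 65 with hi | hi
  · have h1 := pat_self_tau i (by omega)
    have h2 := pat_ne_tau i i' (by omega) (Ne.symm hne)
    rw [he] at h1
    rw [h1] at h2
    exact Bool.noConfusion h2
  · have hi' : i'.val ≤ 64 := by
      have := i.isLt
      have := i'.isLt
      have : i.val ≠ i'.val := fun hh => hne (Fin.ext hh)
      omega
    have h1 := pat_self_tau i' hi'
    have h2 := pat_ne_tau i' i hi' hne
    rw [← he] at h1
    rw [h1] at h2
    exact Bool.noConfusion h2

/-- The role map of the rows is injective. -/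
theorem phi_inj {g : Gad h} {R C : Fin 66 → Line h} {φ ψ : Fin 66 → Fin 66}
    (hM : ∀ i j, M (R i) (C j) = pat i j)
    (hφ : ∀ i, rrole g (R i) = some (φ i)) (hψ : ∀ j, crole g (C j) = some (ψ j))
    {q : Gad h × Fin 65 × X h} (hlast : R 65 = .inr q) : Function.Injective φ := by
  -- two special rows with the same role
  have key : ∀ i i' : Fin 66, i ≠ i' → ∀ k k' x x', R i = .inl (k, x) → R i' = .inl (k', x') →
      φ i = φ i' → x.val ≤ x'.val → False := by
    intro i i' hne k k' x x' hi hi' hφe hx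
    have h1 := hφ i
    have h2 := hφ i'
    rw [hi] at h1
    rw [hi'] at h2
    have h3 := (rrole_inl h1).2
    have h4 := (rrole_inl h2).2
    have hk : k = k' := by
      apply Fin.ext
      rcases h3 with ⟨a1, a2⟩ | ⟨a1, a2, _⟩ <;> rcases h4 with ⟨b1, b2⟩ | ⟨b1, b2, _⟩
      · omega
      · rw [a1, b1] at hφe; exact absurd hφe (by decide)
      · rw [a1, b1] at hφe; exact absurd hφe (by decide)
      · omega
    subst hk
    have hi64 : i'.val ≤ 64 := by
      by_contra hcon
      have : i' = 65 := Fin.ext (by have := i'.isLt; have : ((65 : Fin 66) : ℕ) = 65 := rfl; omega)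
      rw [this, hlast] at hi'
      cases hi'
    have hi64' : i.val ≤ 64 := by
      by_contra hcon
      have : i = 65 := Fin.ext (by have := i.isLt; have : ((65 : Fin 66) : ℕ) = 65 := rfl; omega)
      rw [this, hlast] at hi
      cases hi
    -- column tau i : zero in row i, one in row i'
    have e1 : M (R i) (C (tau i)) = false := by rw [hM]; exact pat_tau_self i hi64'
    have e2 : M (R i') (C (tau i)) = true := by
      rw [hM]; exact pat_tau_ne i i' hi64' (Ne.symm hne)
    rcases hc : C (tau i) with ⟨k2, s⟩ | q'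
    · rw [hi, hc] at e1
      rw [hi', hc] at e2
      simp only [M] at e1 e2
      rw [dmat_anti hx e2] at e1
      exact Bool.noConfusion e1
    · have e3 : M (R i) (C (tau i)) = pat (φ i) (ψ (tau i)) :=
        M_eq_pat (hφ i) (hψ _) (Or.inr ⟨q', hc⟩)
      have e4 : M (R i') (C (tau i)) = pat (φ i') (ψ (tau i)) :=
        M_eq_pat (hφ i') (hψ _) (Or.inr ⟨q', hc⟩)
      rw [e1] at e3
      rw [e2, ← hφe, ← e3] at e4
      exact Bool.noConfusion e4
  intro i i' hφe
  by_contra hne
  rcases hi : R i with ⟨k, x⟩ | q1 <;> rcases hi' : R i' with ⟨k', x'⟩ | q2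
  · rcases le_total x.val x'.val with hx | hx
    · exact key i i' hne k k' x x' hi hi' hφe hx
    · exact key i' i (Ne.symm hne) k' k x' x hi' hi hφe.symm hx
  · have h1 := hφ i
    have h2 := hφ i'
    rw [hi] at h1
    rw [hi'] at h2
    have h3 := (rrole_inl h1).2
    have h4 := rrole_inr h2
    have h5 : (φ i').val = q2.2.1.val + 1 := by rw [h4.2.1]; rfl
    rcases h3 with ⟨a1, a2⟩ | ⟨a1, a2, a3⟩
    · rw [← hφe, a1] at h5
      have : ((0 : Fin 66) : ℕ) = 0 := rfl
      omega
    · rw [← hφe, a1] at h5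
      have : ((1 : Fin 66) : ℕ) = 1 := rfl
      have := h4.2.2 a3
      omega
  · have h1 := hφ i
    have h2 := hφ i'
    rw [hi] at h1
    rw [hi'] at h2
    have h3 := (rrole_inl h2).2
    have h4 := rrole_inr h1
    have h5 : (φ i).val = q1.2.1.val + 1 := by rw [h4.2.1]; rfl
    rcases h3 with ⟨a1, a2⟩ | ⟨a1, a2, a3⟩
    · rw [hφe, a1] at h5
      have : ((0 : Fin 66) : ℕ) = 0 := rfl
      omega
    · rw [hφe, a1] at h5
      have : ((1 : Fin 66) : ℕ) = 1 := rfl
      have := h4.2.2 a3
      omega
  · apply pat_row_ne hne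
    intro j
    rw [← hM, ← hM, M_eq_pat (hφ i) (hψ j) (Or.inl ⟨q1, hi⟩),
      M_eq_pat (hφ i') (hψ j) (Or.inl ⟨q2, hi'⟩), hφe]

/-- The role map of the columns is injective. -/
theorem psi_inj {g : Gad h} {R C : Fin 66 → Line h} {φ ψ : Fin 66 → Fin 66}
    (hM : ∀ i j, M (R i) (C j) = pat i j)
    (hφ : ∀ i, rrole g (R i) = some (φ i)) (hψ : ∀ j, crole g (C j) = some (ψ j))
    {q : Gad h × Fin 65 × X h} (hlast : C 65 = .inr q) : Function.Injective ψ := by
  have key : ∀ i i' : Fin 66, i ≠ i' → ∀ k k' x x', C i = .inl (k, x) → C i' = .inl (k', x') →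
      ψ i = ψ i' → x.val ≤ x'.val → False := by
    intro i i' hne k k' x x' hi hi' hφe hx
    have h1 := hψ i
    have h2 := hψ i'
    rw [hi] at h1
    rw [hi'] at h2
    have h3 := (crole_inl h1).2
    have h4 := (crole_inl h2).2
    have hk : k = k' := by
      apply Fin.ext
      rcases h3 with ⟨a1, a2⟩ | ⟨a1, a2, _⟩ <;> rcases h4 with ⟨b1, b2⟩ | ⟨b1, b2, _⟩
      · omega
      · rw [a1, b1] at hφe; exact absurd hφe (by decide)
      · rw [a1, b1] at hφe; exact absurd hφe (by decide)
      · omega
    subst hk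
    have hi64 : i'.val ≤ 64 := by
      by_contra hcon
      have : i' = 65 := Fin.ext (by have := i'.isLt; have : ((65 : Fin 66) : ℕ) = 65 := rfl; omega)
      rw [this, hlast] at hi'
      cases hi'
    -- row tau i' : zero in column i', one in column i
    have e1 : M (R (tau i')) (C i') = false := by rw [hM]; exact pat_self_tau i' hi64
    have e2 : M (R (tau i')) (C i) = true := by
      rw [hM]; exact pat_ne_tau i' i hi64 hne
    rcases hc : R (tau i') with ⟨k2, s⟩ | q'
    · rw [hi', hc] at e1
      rw [hi, hc] at e2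
      simp only [M] at e1 e2
      rw [dmat_mono hx e2] at e1
      exact Bool.noConfusion e1
    · have e3 : M (R (tau i')) (C i') = pat (φ (tau i')) (ψ i') :=
        M_eq_pat (hφ _) (hψ i') (Or.inl ⟨q', hc⟩)
      have e4 : M (R (tau i')) (C i) = pat (φ (tau i')) (ψ i) :=
        M_eq_pat (hφ _) (hψ i) (Or.inl ⟨q', hc⟩)
      rw [e1] at e3
      rw [e2, hφe, ← e3] at e4
      exact Bool.noConfusion e4
  intro i i' hφe
  by_contra hne
  rcases hi : C i with ⟨k, x⟩ | q1 <;> rcases hi' : C i' with ⟨k', x'⟩ | q2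
  · rcases le_total x.val x'.val with hx | hx
    · exact key i i' hne k k' x x' hi hi' hφe hx
    · exact key i' i (Ne.symm hne) k' k x' x hi' hi hφe.symm hx
  · have h1 := hψ i
    have h2 := hψ i'
    rw [hi] at h1
    rw [hi'] at h2
    have h3 := (crole_inl h1).2
    have h4 := crole_inr h2
    have h5 : (ψ i').val = q2.2.1.val + 1 := by rw [h4.2.1]; rfl
    rcases h3 with ⟨a1, a2⟩ | ⟨a1, a2, a3⟩
    · rw [← hφe, a1] at h5
      have : ((0 : Fin 66) : ℕ) = 0 := rfl
      omega
    · rw [← hφe, a1] at h5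
      have : ((1 : Fin 66) : ℕ) = 1 := rfl
      have := h4.2.2 a3
      omega
  · have h1 := hψ i
    have h2 := hψ i'
    rw [hi] at h1
    rw [hi'] at h2
    have h3 := (crole_inl h2).2
    have h4 := crole_inr h1
    have h5 : (ψ i).val = q1.2.1.val + 1 := by rw [h4.2.1]; rfl
    rcases h3 with ⟨a1, a2⟩ | ⟨a1, a2, a3⟩
    · rw [hφe, a1] at h5
      have : ((0 : Fin 66) : ℕ) = 0 := rfl
      omega
    · rw [hφe, a1] at h5
      have : ((1 : Fin 66) : ℕ) = 1 := rfl
      have := h4.2.2 a3
      omega
  · apply pat_col_ne hne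
    intro j
    rw [← hM, ← hM, M_eq_pat (hφ j) (hψ i) (Or.inr ⟨q1, hi⟩),
      M_eq_pat (hφ j) (hψ i') (Or.inr ⟨q2, hi'⟩), hφe]

theorem t1c : Stmts.T1c := by
  intro h hh R C hR hC hM q q' hq hq'
  -- the common gadget
  have hqq : M (R 65) (C 65) = true := by rw [hM]; exact pat_last_row 65
  have hgg : q'.1 = q.1 := by
    rw [hq, hq'] at hqq
    obtain ⟨_, j, hj⟩ := roles_of_row hqq
    exact (crole_inr hj).1
  obtain ⟨g, hg⟩ : ∃ g, g = q.1 := ⟨_, rfl⟩
  -- roles
  have hφ0 : ∀ i, ∃ a, rrole g (R i) = some a := by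
    intro i
    have h1 : M (R i) (C 65) = true := by rw [hM]; exact pat_last_col i
    rw [hq'] at h1
    have h2 := (roles_of_col h1).1
    rwa [hgg, ← hg] at h2
  have hψ0 : ∀ j, ∃ a, crole g (C j) = some a := by
    intro j
    have h1 : M (R 65) (C j) = true := by rw [hM]; exact pat_last_row j
    rw [hq] at h1
    have h2 := (roles_of_row h1).2
    rwa [← hg] at h2
  choose φ hφ using hφ0
  choose ψ hψ using hψ0
  have hφi := phi_inj hM hφ hψ hq
  have hψi := psi_inj hM hφ hψ hq'
  have hval0 : ((0 : Fin 66) : ℕ) = 0 := rfl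
  have hval1 : ((1 : Fin 66) : ℕ) = 1 := rfl
  -- values off the special part
  have hrow : ∀ i q1 j, R i = .inr q1 → pat i j = pat (φ i) (ψ j) := by
    intro i q1 j hi
    rw [← hM]
    exact M_eq_pat (hφ i) (hψ j) (Or.inl ⟨q1, hi⟩)
  have hcol : ∀ j q1 i, C j = .inr q1 → pat i j = pat (φ i) (ψ j) := by
    intro j q1 i hj
    rw [← hM]
    exact M_eq_pat (hφ i) (hψ j) (Or.inr ⟨q1, hj⟩)
  have hR65 : ∀ i q1, R i = .inr q1 → (φ i).val = q1.2.1.val + 1 ∧
      (g.1.1.val % 2 = 1 → 2 ≤ (φ i).val) := by
    intro i q1 hi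
    have h1 := hφ i
    rw [hi] at h1
    have h2 := rrole_inr h1
    have h3 : (φ i).val = q1.2.1.val + 1 := by rw [h2.2.1]; rfl
    refine ⟨h3, fun hodd => ?_⟩
    have := h2.2.2 hodd
    omega
  have hC65 : ∀ i q1, C i = .inr q1 → (ψ i).val = q1.2.1.val + 1 ∧
      (g.1.1.val % 2 = 0 → 2 ≤ (ψ i).val) := by
    intro i q1 hi
    have h1 := hψ i
    rw [hi] at h1
    have h2 := crole_inr h1
    have h3 : (ψ i).val = q1.2.1.val + 1 := by rw [h2.2.1]; rfl
    refine ⟨h3, fun hodd => ?_⟩
    have := h2.2.2 hodd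
    omega
  have hu := g.1.1.isLt
  -- first lines are special
  have hR0 : ∃ p, R 0 = .inl p := by
    obtain ⟨i0, hi0⟩ := surj_of_inj hφi 0
    rcases hRi : R i0 with p | q1
    · exact rkey_le_inl (by rw [← hRi]; exact hR 0 i0 (Fin.zero_le _))
    · have := (hR65 i0 q1 hRi).1
      rw [hi0] at this
      omega
  have hC0 : ∃ p, C 0 = .inl p := by
    obtain ⟨i0, hi0⟩ := surj_of_inj hψi 0
    rcases hCi : C i0 with p | q1
    · exact ckey_le_inl (by rw [← hCi]; exact hC 0 i0 (Fin.zero_le _))
    · have := (hC65 i0 q1 hCi).1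
      rw [hi0] at this
      omega
  obtain ⟨⟨k, x⟩, hR0⟩ := hR0
  obtain ⟨⟨k', s⟩, hC0⟩ := hC0
  have rφ0 := hφ 0
  rw [hR0] at rφ0
  have rψ0 := hψ 0
  rw [hC0] at rψ0
  have rφ0' := rrole_inl rφ0
  have rψ0' := crole_inl rψ0
  rcases Nat.mod_two_eq_zero_or_one g.1.1.val with hpar | hpar
  · -- even step
    have hφ00 : φ 0 = 0 := by
      rcases rφ0'.2 with ⟨a, _⟩ | ⟨_, _, b⟩
      · exact a
      · omega
    -- other rows are gadget rows
    have hRg : ∀ i : Fin 66, i ≠ 0 → ∃ q1, R i = .inr q1 := by
      intro i hi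
      rcases hRi : R i with ⟨k1, x1⟩ | q1
      · exfalso
        have h1 := hφ i
        rw [hRi] at h1
        rcases (rrole_inl h1).2 with ⟨a, _⟩ | ⟨_, _, b⟩
        · exact hi (hφi (a.trans hφ00.symm))
        · omega
      · exact ⟨q1, rfl⟩
    have hφ1 : φ 1 = 1 := by
      obtain ⟨i1, hi1⟩ := surj_of_inj hφi 1
      have hne : i1 ≠ 0 := by
        rintro rfl
        rw [hφ00] at hi1
        exact absurd hi1 (by decide)
      obtain ⟨q1, hq1⟩ := hRg 1 (by decide)
      obtain ⟨q2, hq2⟩ := hRg i1 hne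
      have hle := hR 1 i1 (by
        rw [Fin.le_def]
        have : i1.val ≠ 0 := fun hh => hne (Fin.ext hh)
        omega)
      rw [hq1, hq2, rkey_inr, rkey_inr] at hle
      have h1 := (hR65 1 q1 hq1).1
      have h2 := (hR65 i1 q2 hq2).1
      rw [hi1] at h2
      apply Fin.ext
      omega
    obtain ⟨q1, hq1⟩ := hRg 1 (by decide)
    have hψ0 : ψ 0 = 0 := by
      have h1 := hrow 1 q1 0 hq1
      rw [hφ1, (pat_eq_false_iff 1 0).2 (by omega)] at h1
      have h2 := (pat_eq_false_iff 1 (ψ 0)).1 h1.symm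
      apply Fin.ext
      omega
    obtain ⟨⟨k'', s'⟩, hC1⟩ : ∃ p, C 1 = .inl p := by
      rcases hCi : C 1 with p | q2
      · exact ⟨p, rfl⟩
      · exfalso
        have h1 := hcol 1 q2 0 hCi
        rw [hφ00, (pat_eq_false_iff 0 1).2 (by omega)] at h1
        have h2 := (pat_eq_false_iff 0 (ψ 1)).1 h1.symm
        have h3 := (hC65 1 q2 hCi).2 hpar
        omega
    have rψ1 := hψ 1
    rw [hC1] at rψ1
    have rψ1' := crole_inl rψ1
    have hψ1 : ψ 1 = 1 ∧ k''.val = (g.1.1.val + 2) / 2 := by
      rcases rψ1'.2 with ⟨a, _⟩ | ⟨a, b, _⟩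
      · exfalso
        have := hψi (a.trans hψ0.symm)
        exact absurd this (by decide)
      · exact ⟨a, b⟩
    have hk : k.val = g.1.1.val / 2 := by
      rcases rφ0'.2 with ⟨_, a⟩ | ⟨_, _, b⟩
      · exact a
      · omega
    have hk' : k'.val = (g.1.1.val + 1) / 2 := by
      rcases rψ0'.2 with ⟨_, a⟩ | ⟨a, _, _⟩
      · exact a
      · rw [hψ0] at a; exact absurd a (by decide)
    -- entries
    have e1 : st h g.1.1.val x s = true := by
      have := hM 0 0
      rw [hR0, hC0] at this
      simp only [M, dmat] at this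
      rw [if_pos (by omega : k'.val = k.val), (by omega : 2 * k.val = g.1.1.val)] at this
      rw [this, pat_eq_true_iff]
      omega
    have e2 : st h (g.1.1.val + 1) x s' = false := by
      have := hM 0 1
      rw [hR0, hC1] at this
      simp only [M, dmat] at this
      rw [if_neg (by omega), if_pos (by omega : k''.val = k.val + 1),
        (by omega : 2 * k.val + 1 = g.1.1.val + 1)] at this
      rw [this, pat_eq_false_iff]
      omega
    have hord := hC 0 1 (by decide)
    rw [hC0, hC1] at hord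
    have hord' := ckey_le_succ (by omega) hord
    have huh : g.1.1.val = h := by
      apply stage_lemma (α := g.1.2) (x := x) (x' := x) (s := s) (s' := s') (by omega) le_rfl
        (by rcases hord' with a | a | a <;> [left; (right; left); (right; right)] <;> omega)
      · intro h1 h2; exact rφ0'.1.1 h1 h2 (by omega)
      · intro h1 h2; exact rφ0'.1.2 h1 h2 (by omega)
      · intro h1 h2; exact rψ1'.1.1 h1 h2 (by omega)
      · intro h1 h2; exact rψ0'.1.2 h1 h2 (by omega)
      · exact e1
      · exact e2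
    rw [huh] at e1 e2 hk hk'
    have hxs : x = s := central_lemma le_rfl
      (by rcases hord' with a | a | a <;> omega) e1 e2
    refine ⟨x, ?_, ?_⟩
    · rw [hR0]
      congr 2
      exact Fin.ext hk
    · rw [hC0, hxs]
      congr 2
      exact Fin.ext hk'
  · -- odd step
    have hψ00 : ψ 0 = 0 := by
      rcases rψ0'.2 with ⟨a, _⟩ | ⟨_, _, b⟩
      · exact a
      · omega
    -- other columns are gadget columns
    have hCg : ∀ i : Fin 66, i ≠ 0 → ∃ q1, C i = .inr q1 := by
      intro i hi
      rcases hCi : C i with ⟨k1, x1⟩ | q1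
      · exfalso
        have h1 := hψ i
        rw [hCi] at h1
        rcases (crole_inl h1).2 with ⟨a, _⟩ | ⟨_, _, b⟩
        · exact hi (hψi (a.trans hψ00.symm))
        · omega
      · exact ⟨q1, rfl⟩
    have hψ1 : ψ 1 = 1 := by
      obtain ⟨i1, hi1⟩ := surj_of_inj hψi 1
      have hne : i1 ≠ 0 := by
        rintro rfl
        rw [hψ00] at hi1
        exact absurd hi1 (by decide)
      obtain ⟨q1, hq1⟩ := hCg 1 (by decide)
      obtain ⟨q2, hq2⟩ := hCg i1 hne
      have hle := hC 1 i1 (by
        rw [Fin.le_def]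
        have : i1.val ≠ 0 := fun hh => hne (Fin.ext hh)
        omega)
      rw [hq1, hq2, ckey_inr, ckey_inr] at hle
      have h1 := (hC65 1 q1 hq1).1
      have h2 := (hC65 i1 q2 hq2).1
      rw [hi1] at h2
      apply Fin.ext
      omega
    obtain ⟨q1, hq1⟩ := hCg 1 (by decide)
    have hφ0 : φ 0 = 0 := by
      have h1 := hcol 1 q1 0 hq1
      rw [hψ1, (pat_eq_false_iff 0 1).2 (by omega)] at h1
      have h2 := (pat_eq_false_iff (φ 0) 1).1 h1.symm
      apply Fin.ext
      omega
    obtain ⟨⟨k'', x'⟩, hR1⟩ : ∃ p, R 1 = .inl p := by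
      rcases hRi : R 1 with p | q2
      · exact ⟨p, rfl⟩
      · exfalso
        have h1 := hrow 1 q2 0 hRi
        rw [hψ00, (pat_eq_false_iff 1 0).2 (by omega)] at h1
        have h2 := (pat_eq_false_iff (φ 1) 0).1 h1.symm
        have h3 := (hR65 1 q2 hRi).2 hpar
        omega
    have rφ1 := hφ 1
    rw [hR1] at rφ1
    have rφ1' := rrole_inl rφ1
    have hφ1 : φ 1 = 1 ∧ k''.val = (g.1.1.val + 1) / 2 := by
      rcases rφ1'.2 with ⟨a, _⟩ | ⟨a, b, _⟩
      · exfalso
        have := hφi (a.trans hφ0.symm)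
        exact absurd this (by decide)
      · exact ⟨a, b⟩
    have hk : k.val = g.1.1.val / 2 := by
      rcases rφ0'.2 with ⟨_, a⟩ | ⟨a, _, _⟩
      · exact a
      · rw [hφ0] at a; exact absurd a (by decide)
    have hk' : k'.val = (g.1.1.val + 1) / 2 := by
      rcases rψ0'.2 with ⟨_, a⟩ | ⟨_, _, b⟩
      · exact a
      · omega
    -- entries
    have e1 : st h g.1.1.val x s = true := by
      have := hM 0 0
      rw [hR0, hC0] at this
      simp only [M, dmat] at this
      rw [if_neg (by omega), if_pos (by omega : k'.val = k.val + 1),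
        (by omega : 2 * k.val + 1 = g.1.1.val)] at this
      rw [this, pat_eq_true_iff]
      omega
    have e2 : st h (g.1.1.val + 1) x' s = false := by
      have := hM 1 0
      rw [hR1, hC0] at this
      simp only [M, dmat] at this
      rw [if_pos (by omega : k'.val = k''.val),
        (by omega : 2 * k''.val = g.1.1.val + 1)] at this
      rw [this, pat_eq_false_iff]
      omega
    have hord := hR 0 1 (by decide)
    rw [hR0, hR1] at hord
    have hord' := rkey_le_succ (by omega) hord
    have huh : g.1.1.val = h := by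
      apply stage_lemma (α := g.1.2) (x := x) (x' := x') (s := s) (s' := s) (by omega) hord'
        (Or.inr (Or.inr le_rfl))
      · intro h1 h2; exact rφ1'.1.1 h1 h2 (by omega)
      · intro h1 h2; exact rφ0'.1.2 h1 h2 (by omega)
      · intro h1 h2; exact rψ0'.1.1 h1 h2 (by omega)
      · intro h1 h2; exact rψ0'.1.2 h1 h2 (by omega)
      · exact e1
      · exact e2
    rw [huh] at e1 e2 hk hk'
    have hxs : x = s := central_lemma hord' le_rfl e1 e2
    refine ⟨x, ?_, ?_⟩
    · rw [hR0]
      congr 2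
      exact Fin.ext hk
    · rw [hC0, hxs]
      congr 2
      exact Fin.ext hk'

end Crest.Agent.R047
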