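import Crest.Agent.R047.Defs

/-! Statements of the parts (for reference; the proofs live in the named files). -/

set_option autoImplicit false

namespace Crest.Agent.R047.Stmts
open Crest.Agent.R047

/-- Part T1 (file `Rigid.lean`): every copy is intended. -/
def T1 : Prop := ∀ (h : ℕ), 1 ≤ h → ∀ (R C : Fin 66 → Line h),
    (∀ i j, i ≤ j → rkey (R i) ≤ rkey (R j)) →
    (∀ i j, i ≤ j → ckey (C i) ≤ ckey (C j)) →
    (∀ i j, M (R i) (C j) = pat i j) →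
    ∃ x : X h, R 0 = .inl (⟨h / 2, by omega⟩, x) ∧ C 0 = .inl (⟨(h + 1) / 2, by omega⟩, x)

/-- Part T1a (file `RigidA.lean`): the last row is not special. -/
def T1a : Prop := ∀ (h : ℕ), 1 ≤ h → ∀ (R C : Fin 66 → Line h),
    (∀ i j, i ≤ j → rkey (R i) ≤ rkey (R j)) →
    (∀ i j, i ≤ j → ckey (C i) ≤ ckey (C j)) →
    (∀ i j, M (R i) (C j) = pat i j) → ∀ p, R 65 ≠ .inl p

/-- Part T1b (file `RigidB.lean`): the last column is not special. -/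
def T1b : Prop := ∀ (h : ℕ), 1 ≤ h → ∀ (R C : Fin 66 → Line h),
    (∀ i j, i ≤ j → rkey (R i) ≤ rkey (R j)) →
    (∀ i j, i ≤ j → ckey (C i) ≤ ckey (C j)) →
    (∀ i j, M (R i) (C j) = pat i j) → ∀ p, C 65 ≠ .inl p

/-- Part T1c (file `RigidC.lean`): both last lines are gadget lines. -/
def T1c : Prop := ∀ (h : ℕ), 1 ≤ h → ∀ (R C : Fin 66 → Line h),
    (∀ i j, i ≤ j → rkey (R i) ≤ rkey (R j)) →
    (∀ i j, i ≤ j → ckey (C i) ≤ ckey (C j)) →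
    (∀ i j, M (R i) (C j) = pat i j) → ∀ q q', R 65 = .inr q → C 65 = .inr q' →
    ∃ x : X h, R 0 = .inl (⟨h / 2, by omega⟩, x) ∧ C 0 = .inl (⟨(h + 1) / 2, by omega⟩, x)

/-- Part T2 (file `Far.lean`): farness. -/
def T2 : Prop := ∀ (h : ℕ), 1 ≤ h → ∀ (B : Line h → Line h → Bool),
    (¬ ∃ R C : Fin 66 → Line h,
      (∀ i j, i < j → rkey (R i) < rkey (R j)) ∧
      (∀ i j, i < j → ckey (C i) < ckey (C j)) ∧
      ∀ i j, B (R i) (C j) = pat i j) →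
    (2 ^ h) ^ 2 ≤ (Finset.univ.filter
      (fun p : Line h × Line h => M p.1 p.2 ≠ B p.1 p.2)).card

/-- Part T3 (file `Final.lean`): number of lines. -/
def T3 : Prop := ∀ (h : ℕ), 1 ≤ h → Fintype.card (Line h) ≤ (386 * h + 2) * 2 ^ h

/-- Part T4 (file `Final.lean`): the assembly. The host on `Fin n` is obtained by sorting the lines
by `rkey`/`ckey` (e.g. `Tuple.sort`), all-zero dummy lines elsewhere; the copies are injected
into `X h × (Fin 65 → Fin n) × (Fin 65 → Fin n)` by T1. -/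
def T4 : Prop := T1 → T2 → T3 → ∃ H : Fin 66 → Fin 66 → Bool, ∀ h : ℕ, 1 ≤ h →
      ∃ A : Fin ((386 * h + 2) * 2 ^ h) → Fin ((386 * h + 2) * 2 ^ h) → Bool,
        (∀ B : Fin ((386 * h + 2) * 2 ^ h) → Fin ((386 * h + 2) * 2 ^ h) → Bool,
          Fintype.card {rc : (Fin 66 → Fin ((386 * h + 2) * 2 ^ h)) × (Fin 66 → Fin ((386 * h + 2) * 2 ^ h)) //
    StrictMono rc.1 ∧ StrictMono rc.2 ∧ ∀ i j : Fin 66, B (rc.1 i) (rc.2 j) = H i j} = 0 →
            ((386 * (h : ℝ) + 2) ^ 2)⁻¹ * (((386 * h + 2) * 2 ^ h : ℕ) : ℝ) ^ 2 ≤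
              ((Finset.univ.filter (fun rc : Fin ((386 * h + 2) * 2 ^ h) × Fin ((386 * h + 2) * 2 ^ h) =>
                A rc.1 rc.2 ≠ B rc.1 rc.2)).card : ℝ)) ∧
        (Fintype.card {rc : (Fin 66 → Fin ((386 * h + 2) * 2 ^ h)) × (Fin 66 → Fin ((386 * h + 2) * 2 ^ h)) //
    StrictMono rc.1 ∧ StrictMono rc.2 ∧ ∀ i j : Fin 66, A (rc.1 i) (rc.2 j) = H i j} : ℝ) /
            (((386 * h + 2) * 2 ^ h : ℕ) : ℝ) ^ 132 ≤
          ((386 * (h : ℝ) + 2) ^ 2)⁻¹ * (2 : ℝ)⁻¹ ^ h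

end Crest.Agent.R047.Stmts
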